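import Mathlib

set_option autoImplicit false

namespace Crest.Agent.R232

open Finset

/-- dyadic level of a real number -/
noncomputable def lev (v : ℝ) : ℤ := Int.clog 2 |v|

lemma abs_le_two_zpow_lev (v : ℝ) : |v| ≤ (2 : ℝ) ^ lev v := by
  have := Int.self_le_zpow_clog (R := ℝ) (b := 2) (by norm_num) |v|
  simpa [lev] using this

lemma two_zpow_lev_pred_lt (v : ℝ) (hv : v ≠ 0) : (2 : ℝ) ^ (lev v - 1) < |v| := by
  have := Int.zpow_pred_clog_lt_self (R := ℝ) (b := 2) (by norm_num) (abs_pos.2 hv)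
  simpa [lev] using this

/-- the weight `(2^t)^q` -/
noncomputable def wt (q : ℝ) (t : ℤ) : ℝ := ((2 : ℝ) ^ t) ^ q

lemma wt_pos (q : ℝ) (t : ℤ) : 0 < wt q t := Real.rpow_pos_of_pos (zpow_pos (by norm_num) t) q

lemma wt_eq (q : ℝ) (t : ℤ) : wt q t = ((2 : ℝ) ^ q) ^ t :=
  (Real.rpow_zpow_comm (by norm_num) q t).symm

lemma geom_Ico (r : ℝ) (hr : 1 < r) (l : ℤ) (n : ℕ) :
    ∑ t ∈ Ico (l - n) l, r ^ t = (r ^ l - r ^ (l - n)) / (r - 1) := by
  have hr0 : r ≠ 0 := by linarith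
  have hr1 : r - 1 ≠ 0 := by linarith
  induction n with
  | zero => simp
  | succ n ih =>
    have : Ico (l - ((n + 1 : ℕ) : ℤ)) l = insert (l - ((n + 1 : ℕ) : ℤ)) (Ico (l - n) l) := by
      ext t; simp only [Finset.mem_Ico, Finset.mem_insert]; push_cast; omega
    rw [this, Finset.sum_insert (by simp only [Finset.mem_Ico]; push_cast; omega), ih]
    have h2 : r ^ (l - n) = r ^ (l - ((n + 1 : ℕ) : ℤ)) * r := by
      rw [← zpow_add_one₀ hr0]; congr 1; push_cast; ring
    rw [h2]; field_simp; ring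

lemma geom_lt (r : ℝ) (hr : 1 < r) (T : Finset ℤ) (l : ℤ) :
    ∑ t ∈ T, (if t < l then r ^ t else 0) ≤ r ^ l / (r - 1) := by
  obtain ⟨n, hn⟩ : ∃ n : ℕ, ∀ t ∈ T, l - n ≤ t := by
    obtain ⟨b, hb⟩ := T.finite_toSet.bddBelow
    refine ⟨(l - b).toNat, fun t ht => ?_⟩
    have := hb ht
    omega
  have hr0 : 0 < r := by linarith
  rw [← Finset.sum_filter]
  have hsub : T.filter (· < l) ⊆ Ico (l - n) l := by
    intro t ht
    rw [Finset.mem_filter] at ht
    exact Finset.mem_Ico.2 ⟨hn t ht.1, ht.2⟩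
  refine (Finset.sum_le_sum_of_subset_of_nonneg hsub fun t _ _ => (zpow_pos hr0 t).le).trans ?_
  rw [geom_Ico r hr]
  have := zpow_pos hr0 (l - n)
  exact div_le_div_of_nonneg_right (by linarith) (by linarith)

lemma geom_ge (r : ℝ) (hr : 1 < r) (T : Finset ℤ) (l : ℤ) :
    ∑ t ∈ T, (if l ≤ t then r ^ (-t) else 0) ≤ r ^ (-l + 1) / (r - 1) := by
  have := geom_lt r hr (T.image fun t => -t) (-l + 1)
  rw [Finset.sum_image (fun a _ b _ h => neg_injective h)] at this
  refine le_trans (le_of_eq ?_) this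
  refine Finset.sum_congr rfl fun t _ => ?_
  congr 1
  simp only [eq_iff_iff]; omega

/-- the geometric constant -/
noncomputable def gc (q : ℝ) : ℝ := (2 : ℝ) ^ q / ((2 : ℝ) ^ q - 1)

lemma one_lt_two_rpow {q : ℝ} (hq : 0 < q) : 1 < (2 : ℝ) ^ q := Real.one_lt_rpow (by norm_num) hq

lemma gc_pos {q : ℝ} (hq : 0 < q) : 0 < gc q := by
  have := one_lt_two_rpow hq
  unfold gc
  exact div_pos (by linarith) (by linarith)

lemma sum_wt_hi {q : ℝ} (hq : 0 < q) (T : Finset ℤ) (v : ℝ) (hv : v ≠ 0) :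
    ∑ t ∈ T, (if t < lev v then wt q t else 0) ≤ gc q * |v| ^ q := by
  have h1 := one_lt_two_rpow hq
  simp only [wt_eq]
  refine (geom_lt _ h1 T (lev v)).trans ?_
  have h2 : ((2 : ℝ) ^ q) ^ lev v = (2 : ℝ) ^ q * wt q (lev v - 1) := by
    rw [wt_eq, ← zpow_one_add₀ (by linarith)]; congr 1; ring
  have h3 : wt q (lev v - 1) ≤ |v| ^ q :=
    Real.rpow_le_rpow (zpow_pos (by norm_num) _).le (two_zpow_lev_pred_lt v hv).le hq.le
  rw [h2, gc, div_mul_eq_mul_div]
  exact div_le_div_of_nonneg_right (mul_le_mul_of_nonneg_left h3 (by linarith)) (by linarith)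

lemma sum_wt_lo {q : ℝ} (hq : 0 < q) (T : Finset ℤ) (v : ℝ) (hv : v ≠ 0) :
    ∑ t ∈ T, (if lev v ≤ t then wt (-q) t else 0) ≤ gc q * |v| ^ (-q) := by
  have h1 := one_lt_two_rpow hq
  have hw : ∀ t : ℤ, wt (-q) t = ((2 : ℝ) ^ q) ^ (-t) := fun t => by
    rw [wt_eq, Real.rpow_neg (by norm_num), zpow_neg, inv_zpow]
  simp only [hw]
  refine (geom_ge _ h1 T (lev v)).trans ?_
  have h2 : ((2 : ℝ) ^ q) ^ (-lev v + 1) = (2 : ℝ) ^ q * wt (-q) (lev v) := by
    rw [hw, ← zpow_one_add₀ (by linarith)]; congr 1; ring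
  have h3 : wt (-q) (lev v) ≤ |v| ^ (-q) :=
    Real.rpow_le_rpow_of_nonpos (abs_pos.2 hv) (abs_le_two_zpow_lev v) (by linarith)
  rw [h2, gc, div_mul_eq_mul_div]
  exact div_le_div_of_nonneg_right (mul_le_mul_of_nonneg_left h3 (by linarith)) (by linarith)

/-- part above level `t` -/
noncomputable def hi (t : ℤ) (v : ℝ) : ℝ := if t < lev v then v else 0

/-- part below level `t` -/
noncomputable def lo (t : ℤ) (v : ℝ) : ℝ := if lev v ≤ t then v else 0

lemma hi_add_lo (t : ℤ) (v : ℝ) : hi t v + lo t v = v := by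
  unfold hi lo
  by_cases h : t < lev v
  · rw [if_pos h, if_neg (by omega)]; ring
  · rw [if_neg h, if_pos (by omega)]; ring

lemma abs_lo_le (t : ℤ) (v : ℝ) : |lo t v| ≤ (2 : ℝ) ^ t := by
  unfold lo
  split_ifs with h
  · exact (abs_le_two_zpow_lev v).trans (zpow_le_zpow_right₀ (by norm_num) h)
  · rw [abs_zero]; positivity

lemma sum_wt_hi_sq {p : ℝ} (hp : 2 < p) (T : Finset ℤ) (v : ℝ) :
    ∑ t ∈ T, wt (p - 2) t * hi t v ^ 2 ≤ gc (p - 2) * |v| ^ p := by
  by_cases hv : v = 0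
  · subst hv
    simp only [hi, ite_self]
    have := gc_pos (q := p - 2) (by linarith)
    simp only [ne_eq, OfNat.ofNat_ne_zero, not_false_eq_true, zero_pow, mul_zero,
      Finset.sum_const_zero]
    positivity
  · have h1 : ∑ t ∈ T, wt (p - 2) t * hi t v ^ 2 =
        (∑ t ∈ T, (if t < lev v then wt (p - 2) t else 0)) * v ^ 2 := by
      rw [Finset.sum_mul]
      refine Finset.sum_congr rfl fun t _ => ?_
      unfold hi; split_ifs <;> ring
    rw [h1]
    refine (mul_le_mul_of_nonneg_right (sum_wt_hi (by linarith) T v hv) (sq_nonneg v)).trans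
      (le_of_eq ?_)
    rw [mul_assoc, ← sq_abs v, ← Real.rpow_natCast, ← Real.rpow_add (abs_pos.2 hv)]
    norm_num

lemma sum_wt_lo_sq {p : ℝ} (hp : p < 2) (T : Finset ℤ) (v : ℝ) :
    ∑ t ∈ T, wt (p - 2) t * lo t v ^ 2 ≤ gc (2 - p) * |v| ^ p := by
  by_cases hv : v = 0
  · subst hv
    simp only [lo, ite_self]
    have := gc_pos (q := 2 - p) (by linarith)
    simp only [ne_eq, OfNat.ofNat_ne_zero, not_false_eq_true, zero_pow, mul_zero,
      Finset.sum_const_zero]
    positivity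
  · have h1 : ∑ t ∈ T, wt (p - 2) t * lo t v ^ 2 =
        (∑ t ∈ T, (if lev v ≤ t then wt (-(2 - p)) t else 0)) * v ^ 2 := by
      rw [Finset.sum_mul]
      refine Finset.sum_congr rfl fun t _ => ?_
      unfold lo; rw [neg_sub]; split_ifs <;> ring
    rw [h1]
    refine (mul_le_mul_of_nonneg_right (sum_wt_lo (by linarith) T v hv) (sq_nonneg v)).trans
      (le_of_eq ?_)
    rw [mul_assoc, ← sq_abs v, ← Real.rpow_natCast, ← Real.rpow_add (abs_pos.2 hv)]
    norm_num

lemma sum_wt_hi_abs {p : ℝ} (hp : 1 < p) (T : Finset ℤ) (v : ℝ) :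
    ∑ t ∈ T, wt (p - 1) t * |hi t v| ≤ gc (p - 1) * |v| ^ p := by
  by_cases hv : v = 0
  · subst hv
    simp only [hi, ite_self]
    have := gc_pos (q := p - 1) (by linarith)
    simp only [abs_zero, mul_zero, Finset.sum_const_zero]
    positivity
  · have h1 : ∑ t ∈ T, wt (p - 1) t * |hi t v| =
        (∑ t ∈ T, (if t < lev v then wt (p - 1) t else 0)) * |v| := by
      rw [Finset.sum_mul]
      refine Finset.sum_congr rfl fun t _ => ?_
      unfold hi; split_ifs <;> simp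
    rw [h1]
    refine (mul_le_mul_of_nonneg_right (sum_wt_hi (by linarith) T v hv) (abs_nonneg v)).trans
      (le_of_eq ?_)
    rw [mul_assoc, ← Real.rpow_add_one (abs_pos.2 hv).ne']
    norm_num

/-- pointwise interpolation for `p > 2`. -/
lemma pointwise_big {p : ℝ} (hp : 2 < p) (T : Finset ℤ) (c : ℤ → ℝ) (L : ℝ) (hL : 0 < L)
    (hc : ∀ t ∈ T, |c t| ≤ L * (2 : ℝ) ^ t) :
    (∑ t ∈ T, |c t|) ^ p ≤
      (2 + Real.sqrt (gc (p - 2))) ^ p * L ^ (p - 2) * ∑ t ∈ T, wt (p - 2) t * c t ^ 2 := by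
  set Q := ∑ t ∈ T, wt (p - 2) t * c t ^ 2 with hQ
  have hQ0 : 0 ≤ Q := Finset.sum_nonneg fun t _ => mul_nonneg (wt_pos _ _).le (sq_nonneg _)
  have hp0 : 0 < p := by linarith
  rcases hQ0.eq_or_lt with h0 | hQ0
  · have : ∀ t ∈ T, |c t| = 0 := by
      intro t ht
      have := (Finset.sum_eq_zero_iff_of_nonneg
        (fun t _ => mul_nonneg (wt_pos (p - 2) t).le (sq_nonneg (c t)))).1 h0.symm t ht
      rcases mul_eq_zero.1 this with h | h
      · exact absurd h (wt_pos _ _).ne'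
      · simpa using h
    rw [Finset.sum_eq_zero this, ← h0, Real.zero_rpow hp0.ne', mul_zero]
  · set R := (Q / L ^ 2) ^ (1 / p) with hR
    have hR0 : 0 < R := Real.rpow_pos_of_pos (by positivity) _
    have hRp : R ^ p = Q / L ^ 2 := by
      rw [hR, ← Real.rpow_mul (by positivity), one_div_mul_cancel hp0.ne', Real.rpow_one]
    have hsplit : ∑ t ∈ T, |c t| = ∑ t ∈ T, (if t < lev R then |c t| else 0) +
        ∑ t ∈ T, (if lev R ≤ t then |c t| else 0) := by
      rw [← Finset.sum_add_distrib]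
      refine Finset.sum_congr rfl fun t _ => ?_
      by_cases h : t < lev R
      · rw [if_pos h, if_neg (by omega)]; ring
      · rw [if_neg h, if_pos (by omega)]; ring
    have h1 : ∑ t ∈ T, (if t < lev R then |c t| else 0) ≤ 2 * L * R := by
      have h2 := sum_wt_hi (q := 1) one_pos T R hR0.ne'
      have h3 : gc 1 = 2 := by unfold gc; norm_num
      rw [h3, abs_of_pos hR0, Real.rpow_one] at h2
      calc ∑ t ∈ T, (if t < lev R then |c t| else 0)
          ≤ ∑ t ∈ T, L * (if t < lev R then wt 1 t else 0) := by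
            refine Finset.sum_le_sum fun t ht => ?_
            split_ifs
            · rw [wt, Real.rpow_one]; exact hc t ht
            · simp
        _ ≤ L * (2 * R) := by rw [← Finset.mul_sum]; exact mul_le_mul_of_nonneg_left h2 hL.le
        _ = 2 * L * R := by ring
    have h4 : (∑ t ∈ T, (if lev R ≤ t then |c t| else 0)) ^ 2 ≤
        Q * ∑ t ∈ T, (if lev R ≤ t then wt (-(p - 2)) t else 0) := by
      refine Finset.sum_sq_le_sum_mul_sum_of_sq_le_mul _
        (fun t _ => mul_nonneg (wt_pos _ _).le (sq_nonneg _))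
        (fun t _ => by split_ifs; exacts [(wt_pos _ _).le, le_rfl]) (fun t _ => ?_)
      split_ifs
      · have : wt (p - 2) t * wt (-(p - 2)) t = 1 := by
          unfold wt
          rw [← Real.rpow_add (zpow_pos (by norm_num) t)]; simp
        rw [sq_abs]; nlinarith
      · simp
    have h5 := sum_wt_lo (q := p - 2) (by linarith) T R hR0.ne'
    rw [abs_of_pos hR0] at h5
    have h6 : Q * (gc (p - 2) * R ^ (-(p - 2))) = (Real.sqrt (gc (p - 2)) * L * R) ^ 2 := by
      have hQ' : Q = L ^ 2 * R ^ p := by rw [hRp]; field_simp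
      have : R ^ p * R ^ (-(p - 2)) = R ^ 2 := by
        rw [← Real.rpow_add hR0, ← Real.rpow_natCast]; norm_num
      rw [mul_pow, mul_pow, Real.sq_sqrt (gc_pos (by linarith)).le, ← this, hQ']; ring
    have h7 : ∑ t ∈ T, (if lev R ≤ t then |c t| else 0) ≤ Real.sqrt (gc (p - 2)) * L * R := by
      refine le_of_sq_le_sq ?_ (by positivity)
      rw [← h6]
      exact h4.trans (mul_le_mul_of_nonneg_left h5 hQ0.le)
    have h8 : ∑ t ∈ T, |c t| ≤ (2 + Real.sqrt (gc (p - 2))) * L * R := by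
      rw [hsplit]; linarith
    refine (Real.rpow_le_rpow (Finset.sum_nonneg fun t _ => abs_nonneg _) h8 hp0.le).trans
      (le_of_eq ?_)
    rw [Real.mul_rpow (by positivity) hR0.le, Real.mul_rpow (by positivity) hL.le, hRp,
      Real.rpow_sub hL]
    rw [show L ^ (2 : ℝ) = L ^ 2 by rw [← Real.rpow_natCast]; norm_num]
    field_simp

/-- pointwise interpolation for `p < 2`. -/
lemma pointwise_small {p : ℝ} (hp1 : 1 < p) (hp : p < 2) (t : ℤ) (c L : ℝ) (hL : 0 < L) :
    |c| ^ p ≤ L ^ (1 - p) * (wt (p - 1) t * |c|) + L ^ (2 - p) * (wt (p - 2) t * c ^ 2) := by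
  have hw1 := wt_pos (p - 1) t
  have hw2 := wt_pos (p - 2) t
  by_cases hc : c = 0
  · subst hc; simp [Real.zero_rpow (by linarith : p ≠ 0)]
  have hc0 := abs_pos.2 hc
  set ρ := (2 : ℝ) ^ t / L with hρ
  have hρ0 : 0 < ρ := by positivity
  have hρq : ∀ q : ℝ, ρ ^ q = L ^ (-q) * wt q t := fun q => by
    rw [hρ, Real.div_rpow (by positivity) hL.le, Real.rpow_neg hL.le, wt]; ring
  rcases le_total |c| ρ with h | h
  · have h1 : |c| ^ p = |c| ^ (p - 1) * |c| := by
      rw [← Real.rpow_add_one hc0.ne']; norm_num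
    have h2 : |c| ^ (p - 1) ≤ ρ ^ (p - 1) := Real.rpow_le_rpow hc0.le h (by linarith)
    rw [hρq, neg_sub] at h2
    have h3 : 0 ≤ L ^ (2 - p) * (wt (p - 2) t * c ^ 2) := by positivity
    nlinarith
  · have h1 : |c| ^ p = |c| ^ (p - 2) * c ^ 2 := by
      rw [← sq_abs c, ← Real.rpow_natCast, ← Real.rpow_add hc0]; norm_num
    have h2 : |c| ^ (p - 2) ≤ ρ ^ (p - 2) := Real.rpow_le_rpow_of_nonpos hρ0 h (by linarith)
    rw [hρq, neg_sub] at h2
    have h3 : 0 ≤ L ^ (1 - p) * (wt (p - 1) t * |c|) := by positivity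
    nlinarith [sq_nonneg c]

end Crest.Agent.R232
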