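import Mathlib
import Crest.Agent.R232.Scalar

set_option autoImplicit false

namespace Crest.Agent.R232

open Finset

/-- the tent function -/
def th (M : ℕ) (i : ℤ) : ℕ := #((range M).filter fun s : ℕ => (s : ℤ) < i ∧ i ≤ M + s)

/-- the smoothed dyadic piece -/
noncomputable def al (M : ℕ) (j : ℤ) (v : ℝ) : ℝ :=
  ∑ s ∈ range M, (hi (j + s) v - hi (j + M + s) v)

lemma al_eq (M : ℕ) (j : ℤ) (v : ℝ) : al M j v = v * th M (lev v - j) := by
  unfold al th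
  rw [Finset.card_filter]
  push_cast
  rw [Finset.mul_sum]
  refine Finset.sum_congr rfl fun s _ => ?_
  unfold hi
  by_cases h1 : j + s < lev v
  · by_cases h2 : j + M + s < lev v
    · rw [if_pos h1, if_pos h2, if_neg (by omega)]; ring
    · rw [if_pos h1, if_neg h2, if_pos (by omega)]; ring
  · rw [if_neg h1, if_neg (by omega), if_neg (by omega)]; ring

lemma th_le (M : ℕ) (i : ℤ) : th M i ≤ M := by
  unfold th
  exact (Finset.card_filter_le _ _).trans (by simp)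

lemma th_eq_zero (M : ℕ) (i : ℤ) (h : i ≤ 0 ∨ 2 * (M : ℤ) < i) : th M i = 0 := by
  unfold th
  rw [Finset.card_eq_zero, Finset.filter_eq_empty_iff]
  intro s hs
  have := Finset.mem_range.1 hs
  omega

lemma sum_th (M : ℕ) : ∑ i ∈ Ioc (0 : ℤ) (2 * M), th M i = M ^ 2 := by
  unfold th
  simp only [Finset.card_filter]
  rw [Finset.sum_comm]
  have : ∀ s ∈ range M, ∑ i ∈ Ioc (0 : ℤ) (2 * M),
      (if (s : ℤ) < i ∧ i ≤ M + s then 1 else 0) = M := by
    intro s hs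
    have hs' := Finset.mem_range.1 hs
    rw [← Finset.card_filter]
    have : (Ioc (0 : ℤ) (2 * M)).filter (fun i => (s : ℤ) < i ∧ i ≤ M + s) =
        Ioc (s : ℤ) (M + s) := by
      ext i
      simp only [Finset.mem_filter, Finset.mem_Ioc]
      omega
    rw [this, Int.card_Ioc]
    simp
  rw [Finset.sum_congr rfl this]
  simp [sq]

/-- normalising constant -/
noncomputable def Zc (p : ℝ) (M : ℕ) : ℝ := ∑ i ∈ Ioc (0 : ℤ) (2 * M), (th M i : ℝ) ^ p

lemma Zc_ge {p : ℝ} (hp : 1 ≤ p) (M : ℕ) (hM : 1 ≤ M) :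
    (2 : ℝ) ^ (1 - p) * (M : ℝ) ^ (p + 1) ≤ Zc p M := by
  have hM0 : (0 : ℝ) < M := by exact_mod_cast hM
  have h := Real.rpow_sum_le_const_mul_sum_rpow (Ioc (0 : ℤ) (2 * M))
    (fun i => (th M i : ℝ)) hp
  simp only [Nat.abs_cast] at h
  have h1 : ∑ i ∈ Ioc (0 : ℤ) (2 * M), (th M i : ℝ) = (M : ℝ) ^ 2 := by
    exact_mod_cast sum_th M
  have h2 : ((#(Ioc (0 : ℤ) (2 * M)) : ℕ) : ℝ) = 2 * M := by
    rw [Int.card_Ioc]
    have : (2 * (M : ℤ) - 0).toNat = 2 * M := by omega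
    rw [this]; push_cast; ring
  rw [h1, h2] at h
  change _ ≤ _ * Zc p M at h
  have h3 : ((M : ℝ) ^ 2) ^ p = (2 * (M : ℝ)) ^ (p - 1) *
      ((2 : ℝ) ^ (1 - p) * (M : ℝ) ^ (p + 1)) := by
    rw [Real.mul_rpow (by norm_num) hM0.le, ← Real.rpow_natCast, ← Real.rpow_mul hM0.le]
    have e1 : (2 : ℝ) ^ (p - 1) * (2 : ℝ) ^ (1 - p) = 1 := by
      rw [← Real.rpow_add (by norm_num)]; simp
    have e2 : (M : ℝ) ^ (p - 1) * (M : ℝ) ^ (p + 1) = (M : ℝ) ^ (((2 : ℕ) : ℝ) * p) := by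
      rw [← Real.rpow_add hM0]; congr 1; push_cast; ring
    rw [← e2]
    linear_combination (-(M : ℝ) ^ (p - 1) * (M : ℝ) ^ (p + 1)) * e1
  rw [h3] at h
  exact le_of_mul_le_mul_left h (Real.rpow_pos_of_pos (by positivity) _)

lemma Zc_pos {p : ℝ} (hp : 1 ≤ p) (M : ℕ) (hM : 1 ≤ M) : 0 < Zc p M := by
  have hM0 : (0 : ℝ) < M := by exact_mod_cast hM
  exact lt_of_lt_of_le (by positivity) (Zc_ge hp M hM)

lemma sum_th_J {p : ℝ} (hp : 0 < p) (M : ℕ) (J : Finset ℤ) (l : ℤ)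
    (hJ : Ico (l - 2 * M) l ⊆ J) : ∑ j ∈ J, (th M (l - j) : ℝ) ^ p = Zc p M := by
  rw [← Finset.sum_subset hJ]
  · unfold Zc
    refine Finset.sum_nbij' (fun j => l - j) (fun i => l - i) ?_ ?_ ?_ ?_ ?_
    · intro j hj
      simp only [Finset.mem_Ico, Finset.mem_Ioc] at hj ⊢
      omega
    · intro j hj
      simp only [Finset.mem_Ico, Finset.mem_Ioc] at hj ⊢
      omega
    · intro j _; simp
    · intro j _; simp
    · intro j _; rfl
  · intro j _ hj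
    rw [th_eq_zero M _ (by simp only [Finset.mem_Ico] at hj; omega)]
    simp [hp.ne']

lemma sum_al_pow {p : ℝ} (hp : 0 < p) (M : ℕ) (J : Finset ℤ) (v : ℝ)
    (hJ : Ico (lev v - 2 * M) (lev v) ⊆ J) : ∑ j ∈ J, |al M j v| ^ p = Zc p M * |v| ^ p := by
  rw [← sum_th_J hp M J (lev v) hJ, Finset.sum_mul]
  refine Finset.sum_congr rfl fun j _ => ?_
  rw [al_eq, abs_mul, Nat.abs_cast, Real.mul_rpow (abs_nonneg _) (Nat.cast_nonneg _), mul_comm]

lemma abs_al_le (M : ℕ) (j : ℤ) (v : ℝ) : |al M j v| ≤ M * (4 : ℝ) ^ M * (2 : ℝ) ^ j := by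
  rw [al_eq, abs_mul, Nat.abs_cast]
  by_cases h : 2 * (M : ℤ) < lev v - j
  · rw [th_eq_zero M _ (Or.inr h)]
    simp only [Nat.cast_zero, mul_zero]
    positivity
  · have h1 : |v| ≤ (4 : ℝ) ^ M * (2 : ℝ) ^ j := by
      refine (abs_le_two_zpow_lev v).trans ?_
      have : (4 : ℝ) ^ M * (2 : ℝ) ^ j = (2 : ℝ) ^ (2 * (M : ℤ) + j) := by
        rw [zpow_add₀ (by norm_num), zpow_mul, zpow_natCast]; norm_num
      rw [this]
      exact zpow_le_zpow_right₀ (by norm_num) (by omega)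
    have h2 : (th M (lev v - j) : ℝ) ≤ M := by exact_mod_cast th_le M _
    calc |v| * (th M (lev v - j) : ℝ) ≤ ((4 : ℝ) ^ M * (2 : ℝ) ^ j) * M :=
          mul_le_mul h1 h2 (Nat.cast_nonneg _) (by positivity)
      _ = _ := by ring

lemma abs_al_le_hi (M : ℕ) (j : ℤ) (v : ℝ) : |al M j v| ≤ M * |hi j v| := by
  rw [al_eq, abs_mul, Nat.abs_cast]
  unfold hi
  split_ifs with h
  · have h2 : (th M (lev v - j) : ℝ) ≤ M := by exact_mod_cast th_le M _
    rw [mul_comm]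
    exact mul_le_mul_of_nonneg_right h2 (abs_nonneg _)
  · rw [th_eq_zero M _ (Or.inl (by omega))]
    simp

lemma sum_shift_le (g : ℤ → ℝ) (hg : ∀ t, 0 ≤ g t) (J T : Finset ℤ) (s : ℤ)
    (h : ∀ j ∈ J, j + s ∈ T) : ∑ j ∈ J, g (j + s) ≤ ∑ t ∈ T, g t := by
  rw [← Finset.sum_image (s := J) (g := fun j => j + s) (f := g)
    (fun a _ b _ hab => by simpa using hab)]
  refine Finset.sum_le_sum_of_subset_of_nonneg ?_ fun t _ _ => hg t
  intro t ht
  obtain ⟨j, hj, rfl⟩ := Finset.mem_image.1 ht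
  exact h j hj

lemma sum_window_le (g : ℤ → ℝ) (hg : ∀ t, 0 ≤ g t) (T : Finset ℤ) (N : ℕ) (j : ℤ)
    (h : ∀ s : ℕ, s < N → j + s ∈ T) : ∑ s ∈ range N, g (j + s) ≤ ∑ t ∈ T, g t := by
  rw [← Finset.sum_image (s := range N) (g := fun s : ℕ => j + s) (f := g)
    (fun a _ b _ hab => by simpa using hab)]
  refine Finset.sum_le_sum_of_subset_of_nonneg ?_ fun t _ _ => hg t
  intro t ht
  obtain ⟨s, hs, rfl⟩ := Finset.mem_image.1 ht
  exact h s (Finset.mem_range.1 hs)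

lemma sum_sum_window_le (g : ℤ → ℝ) (hg : ∀ t, 0 ≤ g t) (J T : Finset ℤ) (N : ℕ)
    (h : ∀ j ∈ J, ∀ s : ℕ, s < N → j + s ∈ T) :
    ∑ j ∈ J, ∑ s ∈ range N, g (j + s) ≤ N * ∑ t ∈ T, g t := by
  rw [Finset.sum_comm]
  calc ∑ s ∈ range N, ∑ j ∈ J, g (j + s) ≤ ∑ s ∈ range N, ∑ t ∈ T, g t :=
        Finset.sum_le_sum fun s hs => sum_shift_le g hg J T s
          fun j hj => h j hj s (Finset.mem_range.1 hs)
    _ = _ := by simp

lemma abs_window_le (c : ℤ → ℝ) (M : ℕ) (j : ℤ) :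
    |∑ s ∈ range M, (c (j + s) - c (j + M + s))| ≤ ∑ s ∈ range (2 * M), |c (j + s)| := by
  rw [two_mul, Finset.sum_range_add, ← Finset.sum_add_distrib]
  refine (Finset.abs_sum_le_sum_abs _ _).trans (Finset.sum_le_sum fun s _ => ?_)
  refine (abs_sub _ _).trans (le_of_eq ?_)
  push_cast
  rw [add_assoc]

/-- windowed error, first form -/
lemma window_err_big {p : ℝ} (hp : 1 ≤ p) (c : ℤ → ℝ) (M : ℕ) (J T : Finset ℤ)
    (h : ∀ j ∈ J, ∀ s : ℕ, s < 2 * M → j + s ∈ T) :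
    ∑ j ∈ J, |∑ s ∈ range M, (c (j + s) - c (j + M + s))| ^ p ≤
      2 * M * (∑ t ∈ T, |c t|) ^ p := by
  set S := ∑ t ∈ T, |c t| with hS
  have hS0 : 0 ≤ S := Finset.sum_nonneg fun t _ => abs_nonneg _
  have h1 : ∀ j ∈ J, |∑ s ∈ range M, (c (j + s) - c (j + M + s))| ^ p ≤
      S ^ (p - 1) * ∑ s ∈ range (2 * M), |c (j + s)| := by
    intro j hj
    have h2 := abs_window_le c M j
    have h3 := sum_window_le (fun t => |c t|) (fun t => abs_nonneg _) T (2 * M) j (h j hj)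
    have h4 := abs_nonneg (∑ s ∈ range M, (c (j + s) - c (j + M + s)))
    set w := |∑ s ∈ range M, (c (j + s) - c (j + M + s))|
    have h5 : w ^ p = w ^ (p - 1) * w := by
      rw [← Real.rpow_add_one' h4 (by linarith)]; norm_num
    rw [h5]
    exact mul_le_mul (Real.rpow_le_rpow h4 (h2.trans h3) (by linarith)) h2 h4
      (Real.rpow_nonneg hS0 _)
  refine (Finset.sum_le_sum h1).trans ?_
  rw [← Finset.mul_sum]
  have h6 := sum_sum_window_le (fun t => |c t|) (fun t => abs_nonneg _) J T (2 * M) h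
  have h5 : S ^ p = S ^ (p - 1) * S := by
    rw [← Real.rpow_add_one' hS0 (by linarith)]; norm_num
  refine (mul_le_mul_of_nonneg_left h6 (Real.rpow_nonneg hS0 _)).trans (le_of_eq ?_)
  rw [h5]; push_cast; ring

/-- windowed error, second form -/
lemma window_err_small {p : ℝ} (hp : 1 ≤ p) (c : ℤ → ℝ) (M : ℕ) (hM : 1 ≤ M) (J T : Finset ℤ)
    (h : ∀ j ∈ J, ∀ s : ℕ, s < 2 * M → j + s ∈ T) :
    ∑ j ∈ J, |∑ s ∈ range M, (c (j + s) - c (j + M + s))| ^ p ≤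
      (2 * M) ^ p * ∑ t ∈ T, |c t| ^ p := by
  have hM0 : (0 : ℝ) < M := by exact_mod_cast hM
  have h1 : ∀ j ∈ J, |∑ s ∈ range M, (c (j + s) - c (j + M + s))| ^ p ≤
      (2 * M) ^ (p - 1) * ∑ s ∈ range (2 * M), |c (j + s)| ^ p := by
    intro j _
    have h2 := abs_window_le c M j
    refine (Real.rpow_le_rpow (abs_nonneg _) h2 (by linarith)).trans ?_
    have h3 := Real.rpow_sum_le_const_mul_sum_rpow (range (2 * M))
      (fun s : ℕ => |c (j + s)|) hp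
    simp only [abs_abs, Finset.card_range] at h3
    push_cast at h3
    exact h3
  refine (Finset.sum_le_sum h1).trans ?_
  rw [← Finset.mul_sum]
  have h6 := sum_sum_window_le (fun t => |c t| ^ p)
    (fun t => Real.rpow_nonneg (abs_nonneg _) _) J T (2 * M) h
  have h5 : (2 * M : ℝ) ^ p = (2 * M : ℝ) ^ (p - 1) * (2 * M) := by
    rw [← Real.rpow_add_one (by positivity)]; norm_num
  refine (mul_le_mul_of_nonneg_left h6 (by positivity)).trans (le_of_eq ?_)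
  rw [h5]; push_cast; ring

end Crest.Agent.R232
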