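import Mathlib
import Crest.Agent.R232.Tent

set_option autoImplicit false

namespace Crest.Agent.R232

open Finset

/-- the commutator of the kernel with truncation at level `t` -/
noncomputable def cc {F : Type} [Fintype F] (k g : F → ℝ) (e : F) (t : ℤ) : ℝ :=
  ∑ f, k f * hi t (g f) - hi t (g e)

/-- the part used in the `ℓ^2` estimate -/
noncomputable def part (p : ℝ) (t : ℤ) (v : ℝ) : ℝ := if 2 < p then hi t v else lo t v

lemma sum_wt_part_sq {p : ℝ} (hp : p ≠ 2) (T : Finset ℤ) (v : ℝ) :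
    ∑ t ∈ T, wt (p - 2) t * part p t v ^ 2 ≤ gc |p - 2| * |v| ^ p := by
  unfold part
  by_cases h : 2 < p
  · simp only [if_pos h]
    rw [abs_of_pos (by linarith : 0 < p - 2)]
    exact sum_wt_hi_sq h T v
  · simp only [if_neg h]
    have h' : p < 2 := lt_of_le_of_ne (not_lt.1 h) hp
    rw [abs_of_neg (by linarith : p - 2 < 0), neg_sub]
    exact sum_wt_lo_sq h' T v

section
variable {F : Type} [Fintype F]

lemma cc_eq_lo (k g : F → ℝ) (e : F) (hrep : ∑ f, k f * g f = g e) (t : ℤ) :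
    cc k g e t = lo t (g e) - ∑ f, k f * lo t (g f) := by
  unfold cc
  have h1 : ∑ f, k f * hi t (g f) + ∑ f, k f * lo t (g f) = g e := by
    rw [← Finset.sum_add_distrib, ← hrep]
    refine Finset.sum_congr rfl fun f _ => ?_
    rw [← mul_add, hi_add_lo]
  have h2 := hi_add_lo t (g e)
  linarith

lemma abs_cc_le (k g : F → ℝ) (e : F) (hrep : ∑ f, k f * g f = g e) (L : ℝ)
    (hk : ∑ f, |k f| ≤ L) (t : ℤ) : |cc k g e t| ≤ (L + 1) * (2 : ℝ) ^ t := by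
  rw [cc_eq_lo k g e hrep]
  have h1 : |∑ f, k f * lo t (g f)| ≤ L * (2 : ℝ) ^ t := by
    refine (Finset.abs_sum_le_sum_abs _ _).trans ?_
    calc ∑ f, |k f * lo t (g f)| ≤ ∑ f, |k f| * (2 : ℝ) ^ t :=
          Finset.sum_le_sum fun f _ => by
            rw [abs_mul]; exact mul_le_mul_of_nonneg_left (abs_lo_le _ _) (abs_nonneg _)
      _ ≤ L * (2 : ℝ) ^ t := by
          rw [← Finset.sum_mul]; exact mul_le_mul_of_nonneg_right hk (by positivity)
  have h2 := abs_lo_le t (g e)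
  refine (abs_sub _ _).trans ?_
  linarith

lemma cc_sq_eq (p : ℝ) (k g : F → ℝ) (e : F) (hrep : ∑ f, k f * g f = g e) (t : ℤ) :
    cc k g e t ^ 2 = (∑ f, k f * part p t (g f) - part p t (g e)) ^ 2 := by
  unfold part
  by_cases h : 2 < p
  · simp only [if_pos h]; rfl
  · simp only [if_neg h]
    rw [cc_eq_lo k g e hrep]; ring

lemma diff_eq (k g : F → ℝ) (e : F) (M : ℕ) (j : ℤ) :
    ∑ f, k f * al M j (g f) - al M j (g e) =
      ∑ s ∈ range M, (cc k g e (j + s) - cc k g e (j + M + s)) := by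
  unfold al cc
  simp only [Finset.mul_sum, mul_sub]
  rw [Finset.sum_comm, ← Finset.sum_sub_distrib]
  refine Finset.sum_congr rfl fun s _ => ?_
  rw [Finset.sum_sub_distrib]
  ring

variable {Ω : Type} [Fintype Ω]

lemma sum_cc_sq {p : ℝ} (hp : p ≠ 2) (k : F → ℝ) (h : Ω → F → ℝ) (e : F)
    (hrep : ∀ ω, ∑ f, k f * h ω f = h ω e) (hh : ∑ ω, |h ω e| ^ p ≤ 1) (T : Finset ℤ)
    (hL2 : ∑ ω, ∑ t ∈ T, wt (p - 2) t * (∑ f, k f * part p t (h ω f)) ^ 2 ≤ 12 * gc |p - 2|) :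
    ∑ ω, ∑ t ∈ T, wt (p - 2) t * cc k (h ω) e t ^ 2 ≤ 26 * gc |p - 2| := by
  have hg : 0 < gc |p - 2| := gc_pos (abs_pos.2 (sub_ne_zero.2 hp))
  have h1 : ∑ ω, ∑ t ∈ T, wt (p - 2) t * part p t (h ω e) ^ 2 ≤ gc |p - 2| := by
    calc _ ≤ ∑ ω, gc |p - 2| * |h ω e| ^ p :=
          Finset.sum_le_sum fun ω _ => sum_wt_part_sq hp T _
      _ ≤ gc |p - 2| * 1 := by
          rw [← Finset.mul_sum]; exact mul_le_mul_of_nonneg_left hh hg.le
      _ = _ := mul_one _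
  calc _ ≤ ∑ ω, ∑ t ∈ T, (2 * (wt (p - 2) t * (∑ f, k f * part p t (h ω f)) ^ 2) +
        2 * (wt (p - 2) t * part p t (h ω e) ^ 2)) := by
        refine Finset.sum_le_sum fun ω _ => Finset.sum_le_sum fun t _ => ?_
        rw [cc_sq_eq p k (h ω) e (hrep ω)]
        have := wt_pos (p - 2) t
        nlinarith [mul_nonneg this.le
          (sq_nonneg (∑ f, k f * part p t (h ω f) + part p t (h ω e)))]
    _ = 2 * ∑ ω, ∑ t ∈ T, wt (p - 2) t * (∑ f, k f * part p t (h ω f)) ^ 2 +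
        2 * ∑ ω, ∑ t ∈ T, wt (p - 2) t * part p t (h ω e) ^ 2 := by
        simp only [Finset.sum_add_distrib, Finset.mul_sum]
    _ ≤ _ := by linarith

lemma sum_wt_hi_abs_le {p : ℝ} (hp : 1 < p) (h : Ω → ℝ) (hh : ∑ ω, |h ω| ^ p ≤ 1)
    (T : Finset ℤ) : ∑ ω, ∑ t ∈ T, wt (p - 1) t * |hi t (h ω)| ≤ gc (p - 1) := by
  have hg : 0 < gc (p - 1) := gc_pos (by linarith)
  calc _ ≤ ∑ ω, gc (p - 1) * |h ω| ^ p :=
        Finset.sum_le_sum fun ω _ => sum_wt_hi_abs hp T _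
    _ ≤ gc (p - 1) * 1 := by
        rw [← Finset.mul_sum]; exact mul_le_mul_of_nonneg_left hh hg.le
    _ = _ := mul_one _

lemma sum_wt_kernel_le {p : ℝ} (hp : 1 < p) (k : F → ℝ) (h : Ω → F → ℝ) (L : ℝ)
    (hk : ∑ f, |k f| ≤ L) (hh : ∀ f, ∑ ω, |h ω f| ^ p ≤ 1) (T : Finset ℤ) :
    ∑ ω, ∑ t ∈ T, wt (p - 1) t * ∑ f, |k f| * |hi t (h ω f)| ≤ L * gc (p - 1) := by
  have hg : 0 < gc (p - 1) := gc_pos (by linarith)
  calc _ = ∑ f, |k f| * ∑ ω, ∑ t ∈ T, wt (p - 1) t * |hi t (h ω f)| := by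
        simp only [Finset.mul_sum]
        rw [Finset.sum_comm (s := univ) (t := univ)]
        refine Finset.sum_congr rfl fun ω _ => ?_
        rw [Finset.sum_comm]
        refine Finset.sum_congr rfl fun f _ => Finset.sum_congr rfl fun t _ => ?_
        ring
    _ ≤ ∑ f, |k f| * gc (p - 1) := Finset.sum_le_sum fun f _ =>
        mul_le_mul_of_nonneg_left (sum_wt_hi_abs_le hp (fun ω => h ω f) (hh f) T) (abs_nonneg _)
    _ ≤ _ := by rw [← Finset.sum_mul]; exact mul_le_mul_of_nonneg_right hk hg.le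

lemma sum_cc_abs {p : ℝ} (hp : 1 < p) (k : F → ℝ) (h : Ω → F → ℝ) (e : F) (L : ℝ)
    (hk : ∑ f, |k f| ≤ L) (hh : ∀ f, ∑ ω, |h ω f| ^ p ≤ 1) (T : Finset ℤ) :
    ∑ ω, ∑ t ∈ T, wt (p - 1) t * |cc k (h ω) e t| ≤ (L + 1) * gc (p - 1) := by
  have h1 := sum_wt_kernel_le hp k h L hk hh T
  have h2 := sum_wt_hi_abs_le hp (fun ω => h ω e) (hh e) T
  calc _ ≤ ∑ ω, ∑ t ∈ T, (wt (p - 1) t * ∑ f, |k f| * |hi t (h ω f)| +
        wt (p - 1) t * |hi t (h ω e)|) := by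
        refine Finset.sum_le_sum fun ω _ => Finset.sum_le_sum fun t _ => ?_
        rw [← mul_add]
        refine mul_le_mul_of_nonneg_left ?_ (wt_pos _ _).le
        unfold cc
        refine (abs_sub _ _).trans (add_le_add ?_ le_rfl)
        refine (Finset.abs_sum_le_sum_abs _ _).trans (le_of_eq ?_)
        simp only [abs_mul]
    _ ≤ _ := by
        simp only [Finset.sum_add_distrib]
        linarith

lemma err_big {p : ℝ} (hp : 2 < p) (k : F → ℝ) (h : Ω → F → ℝ) (e : F) (L : ℝ) (hL : 0 ≤ L)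
    (M : ℕ) (J T : Finset ℤ) (hk : ∑ f, |k f| ≤ L)
    (hrep : ∀ ω, ∑ f, k f * h ω f = h ω e) (hh : ∀ f, ∑ ω, |h ω f| ^ p ≤ 1)
    (hJT : ∀ j ∈ J, ∀ s : ℕ, s < 2 * M → j + s ∈ T)
    (hL2 : ∑ ω, ∑ t ∈ T, wt (p - 2) t * (∑ f, k f * part p t (h ω f)) ^ 2 ≤ 12 * gc |p - 2|) :
    ∑ ω, ∑ j ∈ J, |∑ f, k f * al M j (h ω f) - al M j (h ω e)| ^ p ≤
      (52 * (2 + Real.sqrt (gc (p - 2))) ^ p * gc |p - 2|) * M * (L + 1) ^ (p - 2) := by
  have h1 := sum_cc_sq hp.ne' k h e hrep (hh e) T hL2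
  calc _ ≤ ∑ ω, 2 * M * ((2 + Real.sqrt (gc (p - 2))) ^ p * (L + 1) ^ (p - 2) *
        ∑ t ∈ T, wt (p - 2) t * cc k (h ω) e t ^ 2) := by
        refine Finset.sum_le_sum fun ω _ => ?_
        simp only [diff_eq]
        refine (window_err_big (by linarith) (cc k (h ω) e) M J T hJT).trans ?_
        refine mul_le_mul_of_nonneg_left ?_ (by positivity)
        exact pointwise_big hp T _ (L + 1) (by linarith)
          fun t _ => abs_cc_le k (h ω) e (hrep ω) L hk t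
    _ = 2 * M * ((2 + Real.sqrt (gc (p - 2))) ^ p * (L + 1) ^ (p - 2)) *
        ∑ ω, ∑ t ∈ T, wt (p - 2) t * cc k (h ω) e t ^ 2 := by
        rw [Finset.mul_sum]
        refine Finset.sum_congr rfl fun ω _ => ?_
        ring
    _ ≤ 2 * M * ((2 + Real.sqrt (gc (p - 2))) ^ p * (L + 1) ^ (p - 2)) * (26 * gc |p - 2|) :=
        mul_le_mul_of_nonneg_left h1 (by positivity)
    _ = _ := by ring

lemma err_small {p : ℝ} (hp1 : 1 < p) (hp : p < 2) (k : F → ℝ) (h : Ω → F → ℝ) (e : F) (L : ℝ)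
    (hL : 0 ≤ L) (M : ℕ) (hM : 1 ≤ M) (J T : Finset ℤ) (hk : ∑ f, |k f| ≤ L)
    (hrep : ∀ ω, ∑ f, k f * h ω f = h ω e) (hh : ∀ f, ∑ ω, |h ω f| ^ p ≤ 1)
    (hJT : ∀ j ∈ J, ∀ s : ℕ, s < 2 * M → j + s ∈ T)
    (hL2 : ∑ ω, ∑ t ∈ T, wt (p - 2) t * (∑ f, k f * part p t (h ω f)) ^ 2 ≤ 12 * gc |p - 2|) :
    ∑ ω, ∑ j ∈ J, |∑ f, k f * al M j (h ω f) - al M j (h ω e)| ^ p ≤
      (2 ^ p * (gc (p - 1) + 26 * gc |p - 2|)) * (M : ℝ) ^ p * (L + 1) ^ (2 - p) := by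
  have h1 := sum_cc_sq hp.ne k h e hrep (hh e) T hL2
  have h2 := sum_cc_abs hp1 k h e L hk hh T
  have hL1 : 0 < L + 1 := by linarith
  calc _ ≤ ∑ ω, (2 * M : ℝ) ^ p * ∑ t ∈ T, ((L + 1) ^ (1 - p) * (wt (p - 1) t * |cc k (h ω) e t|) +
        (L + 1) ^ (2 - p) * (wt (p - 2) t * cc k (h ω) e t ^ 2)) := by
        refine Finset.sum_le_sum fun ω _ => ?_
        simp only [diff_eq]
        refine (window_err_small hp1.le (cc k (h ω) e) M hM J T hJT).trans ?_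
        refine mul_le_mul_of_nonneg_left ?_ (by positivity)
        exact Finset.sum_le_sum fun t _ => pointwise_small hp1 hp t _ (L + 1) hL1
    _ = (2 * M : ℝ) ^ p * ((L + 1) ^ (1 - p) * ∑ ω, ∑ t ∈ T, wt (p - 1) t * |cc k (h ω) e t| +
        (L + 1) ^ (2 - p) * ∑ ω, ∑ t ∈ T, wt (p - 2) t * cc k (h ω) e t ^ 2) := by
        rw [← Finset.mul_sum]
        simp only [Finset.sum_add_distrib, Finset.mul_sum]
    _ ≤ (2 * M : ℝ) ^ p * ((L + 1) ^ (1 - p) * ((L + 1) * gc (p - 1)) +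
        (L + 1) ^ (2 - p) * (26 * gc |p - 2|)) := by
        refine mul_le_mul_of_nonneg_left (add_le_add ?_ ?_) (by positivity)
        · exact mul_le_mul_of_nonneg_left h2 (by positivity)
        · exact mul_le_mul_of_nonneg_left h1 (by positivity)
    _ = _ := by
        have : (L + 1) ^ (2 - p) = (L + 1) ^ (1 - p) * (L + 1) := by
          rw [← Real.rpow_add_one hL1.ne']; congr 1; ring
        rw [this, Real.mul_rpow (by norm_num) (Nat.cast_nonneg _)]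
        ring

end

/-- the exponent -/
noncomputable def gam (p : ℝ) : ℝ := if p < 2 then 2 - p else 1 - 2 / p

lemma gam_pos {p : ℝ} (hp2 : p ≠ 2) : 0 < gam p := by
  unfold gam
  split_ifs with h
  · linarith
  · have h' : 2 < p := lt_of_le_of_ne (not_lt.1 h) (Ne.symm hp2)
    have : 2 / p < 1 := (div_lt_one (by linarith)).2 h'
    linarith

lemma err_bound {p : ℝ} (hp1 : 1 < p) (hp2 : p ≠ 2) (δ : ℝ) (hδ : 0 < δ) :
    ∃ C1 : ℝ, 0 < C1 ∧ ∀ (F Ω : Type) [Fintype F] [Fintype Ω] (k : F → ℝ) (h : Ω → F → ℝ) (e : F)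
      (L : ℝ) (M : ℕ) (J T : Finset ℤ), 0 ≤ L → 1 ≤ M → C1 * (L + 1) ^ gam p ≤ M →
      ∑ f, |k f| ≤ L → (∀ ω, ∑ f, k f * h ω f = h ω e) → (∀ f, ∑ ω, |h ω f| ^ p ≤ 1) →
      (∀ j ∈ J, ∀ s : ℕ, s < 2 * M → j + s ∈ T) →
      ∑ ω, ∑ t ∈ T, wt (p - 2) t * (∑ f, k f * part p t (h ω f)) ^ 2 ≤ 12 * gc |p - 2| →
      ∑ ω, ∑ j ∈ J, |∑ f, k f * al M j (h ω f) - al M j (h ω e)| ^ p ≤ δ ^ p * Zc p M := by
  have hg : 0 < gc |p - 2| := gc_pos (abs_pos.2 (sub_ne_zero.2 hp2))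
  have hg1 : 0 < gc (p - 1) := gc_pos (by linarith)
  have hp0 : 0 < p := by linarith
  have hδp : 0 < δ ^ p := Real.rpow_pos_of_pos hδ p
  have h2p : (0 : ℝ) < 2 ^ (1 - p) := by positivity
  rcases lt_or_gt_of_ne hp2 with hp | hp
  · set B := 2 ^ p * (gc (p - 1) + 26 * gc |p - 2|) with hB
    have hB0 : 0 < B := by positivity
    refine ⟨B / (δ ^ p * 2 ^ (1 - p)), by positivity, ?_⟩
    intro F Ω _ _ k h e L M J T hL hM hCM hk hrep hh hJT hL2
    have hM0 : (0 : ℝ) < M := by exact_mod_cast hM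
    refine (err_small hp1 hp k h e L hL M hM J T hk hrep hh hJT hL2).trans ?_
    refine le_trans ?_ (mul_le_mul_of_nonneg_left (Zc_ge hp1.le M hM) hδp.le)
    rw [gam, if_pos hp, div_mul_eq_mul_div, div_le_iff₀ (by positivity)] at hCM
    rw [Real.rpow_add_one hM0.ne', ← hB]
    have := mul_le_mul_of_nonneg_left hCM (Real.rpow_pos_of_pos hM0 p).le
    linarith
  · set B := 52 * (2 + Real.sqrt (gc (p - 2))) ^ p * gc |p - 2| with hB
    have hB0 : 0 < B := by positivity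
    refine ⟨(B / (δ ^ p * 2 ^ (1 - p))) ^ (1 / p), by positivity, ?_⟩
    intro F Ω _ _ k h e L M J T hL hM hCM hk hrep hh hJT hL2
    have hM0 : (0 : ℝ) < M := by exact_mod_cast hM
    have hL1 : 0 < L + 1 := by linarith
    refine (err_big hp k h e L hL M J T hk hrep hh hJT hL2).trans ?_
    refine le_trans ?_ (mul_le_mul_of_nonneg_left (Zc_ge hp1.le M hM) hδp.le)
    rw [gam, if_neg (by linarith)] at hCM
    have h1 := Real.rpow_le_rpow (by positivity) hCM hp0.le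
    rw [Real.mul_rpow (by positivity) (by positivity), ← Real.rpow_mul (by positivity),
      ← Real.rpow_mul hL1.le, one_div_mul_cancel hp0.ne', Real.rpow_one,
      show (1 - 2 / p) * p = p - 2 by field_simp, div_mul_eq_mul_div,
      div_le_iff₀ (by positivity)] at h1
    rw [Real.rpow_add_one hM0.ne', ← hB]
    have := mul_le_mul_of_nonneg_left h1 hM0.le
    linarith

end Crest.Agent.R232
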