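import Mathlib

set_option autoImplicit false
open MeasureTheory
open scoped ENNReal

namespace Crest.Agent.R232

universe u

/-- the `L^p` norm of a difference of coordinates of a simple function is a finite weighted sum -/
lemma simple_eLpNorm_toReal (p : ℝ≥0∞) (hp0 : p ≠ 0) (hptop : p ≠ ⊤) {n : ℕ}
    {α : Type u} [MeasurableSpace α] {μ : Measure α} (s : SimpleFunc α (Fin n → ℝ))
    (hs : MemLp s p μ) (i k : Fin n) :
    (eLpNorm (fun a => s a i - s a k) p μ).toReal =
      (∑ v ∈ s.range, (μ (s ⁻¹' {v})).toReal * |v i - v k| ^ p.toReal) ^ (1 / p.toReal) := by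
  have hq : 0 < p.toReal := ENNReal.toReal_pos hp0 hptop
  rw [eLpNorm_eq_lintegral_rpow_enorm_toReal hp0 hptop, ← ENNReal.toReal_rpow]
  congr 1
  have h1 := SimpleFunc.lintegral_eq_lintegral
    (s.map fun v : Fin n → ℝ => ‖v i - v k‖ₑ ^ p.toReal) μ
  rw [SimpleFunc.map_lintegral] at h1
  simp only [SimpleFunc.map_apply] at h1
  rw [h1, ENNReal.toReal_sum]
  · apply Finset.sum_congr rfl
    intro v _
    rw [ENNReal.toReal_mul, ← ENNReal.toReal_rpow, toReal_enorm, Real.norm_eq_abs, mul_comm]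
  · intro v _
    by_cases hv : v = 0
    · subst hv; simp [hq]
    · exact ENNReal.mul_ne_top (by finiteness)
        (SimpleFunc.measure_preimage_lt_top_of_memLp hp0 hptop s hs v hv).ne

/-- Step 0: finitely many points of an `L^p` space are, up to a factor `1 + δ`, points of a finite
unweighted `ℓ^p` space. -/
theorem exists_finite_model (p : ℝ≥0∞) [Fact (1 ≤ p)] (hptop : p ≠ ⊤) (n : ℕ)
    (α : Type u) [MeasurableSpace α] (μ : Measure α) (x : Fin n → Lp ℝ p μ)
    (hx : Function.Injective x) (δ : ℝ) (hδ : 0 < δ) :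
    ∃ (m : ℕ) (f : Fin m → Fin n → ℝ), ∀ i k,
      ‖x i - x k‖ ≤ (∑ w, |f w i - f w k| ^ p.toReal) ^ (1 / p.toReal) ∧
      (∑ w, |f w i - f w k| ^ p.toReal) ^ (1 / p.toReal) ≤ (1 + δ) * ‖x i - x k‖ := by
  classical
  have hp1 : 1 ≤ p := Fact.out
  have hp0 : p ≠ 0 := (zero_lt_one.trans_le hp1).ne'
  have hq : 0 < p.toReal := ENNReal.toReal_pos hp0 hptop
  obtain ⟨ρ, hρ, hρ'⟩ : ∃ ρ : ℝ, 0 < ρ ∧ ∀ i k, i ≠ k → ρ ≤ ‖x i - x k‖ := by
    obtain ⟨j, hj⟩ := Finite.exists_min (fun j : Option (Fin n × Fin n) =>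
      match j with
      | none => (1 : ℝ)
      | some (i, k) => if i = k then 1 else ‖x i - x k‖)
    refine ⟨_, ?_, fun i k hik => by simpa [hik] using hj (some (i, k))⟩
    rcases j with _ | ⟨i, k⟩
    · norm_num
    · simp only
      split_ifs with h
      · norm_num
      · exact norm_pos_iff.2 (sub_ne_zero.2 fun h' => h (hx h'))
  set θ := δ / (2 + δ) with hθ
  have hθ0 : 0 < θ := by positivity
  have hg : MemLp (fun a i => (x i : α → ℝ) a) p μ := memLp_pi_iff.2 fun i => Lp.memLp (x i)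
  obtain ⟨s, hs, hsm⟩ := hg.exists_simpleFunc_eLpNorm_sub_lt hptop
    (ε := ENNReal.ofReal (θ * ρ / 2)) (by simp; positivity)
  have hsi : ∀ i, MemLp (fun a => s a i) p μ := memLp_pi_iff.1 hsm
  let z : Fin n → Lp ℝ p μ := fun i => (hsi i).toLp _
  have hz : ∀ i, ‖x i - z i‖ ≤ θ * ρ / 2 := by
    intro i
    rw [Lp.norm_def]
    apply ENNReal.toReal_le_of_le_ofReal (by positivity)
    refine le_trans ?_ hs.le
    apply eLpNorm_mono_ae
    filter_upwards [Lp.coeFn_sub (x i) (z i), (hsi i).coeFn_toLp] with a h1 h2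
    rw [h1, Pi.sub_apply, h2]
    exact norm_le_pi_norm ((fun a i => (x i : α → ℝ) a) a - s a) i
  have hzz : ∀ i k, ‖z i - z k‖ =
      (∑ v ∈ s.range, (μ (s ⁻¹' {v})).toReal * |v i - v k| ^ p.toReal) ^ (1 / p.toReal) := by
    intro i k
    rw [← simple_eLpNorm_toReal p hp0 hptop s hsm, ← MemLp.toLp_sub, Lp.norm_toLp]
    rfl
  let e := s.range.equivFin
  let t := 1 + δ / 2
  have ht : 0 < t := by positivity
  refine ⟨s.range.card, fun w i => t * (μ (s ⁻¹' {(e.symm w : Fin n → ℝ)})).toReal ^ (1 / p.toReal)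
    * (e.symm w : Fin n → ℝ) i, fun i k => ?_⟩
  have hval : (∑ w, |t * (μ (s ⁻¹' {(e.symm w : Fin n → ℝ)})).toReal ^ (1 / p.toReal)
      * (e.symm w : Fin n → ℝ) i - t * (μ (s ⁻¹' {(e.symm w : Fin n → ℝ)})).toReal ^ (1 / p.toReal)
      * (e.symm w : Fin n → ℝ) k| ^ p.toReal) ^ (1 / p.toReal) = t * ‖z i - z k‖ := by
    rw [hzz, ← Finset.sum_coe_sort s.range, ← Equiv.sum_comp e.symm]
    have : ∀ w, |t * (μ (s ⁻¹' {(e.symm w : Fin n → ℝ)})).toReal ^ (1 / p.toReal)
      * (e.symm w : Fin n → ℝ) i - t * (μ (s ⁻¹' {(e.symm w : Fin n → ℝ)})).toReal ^ (1 / p.toReal)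
      * (e.symm w : Fin n → ℝ) k| ^ p.toReal = t ^ p.toReal *
        ((μ (s ⁻¹' {(e.symm w : Fin n → ℝ)})).toReal *
          |(e.symm w : Fin n → ℝ) i - (e.symm w : Fin n → ℝ) k| ^ p.toReal) := by
      intro w
      rw [← mul_sub, abs_mul, abs_mul, abs_of_pos ht, abs_of_nonneg (by positivity),
        Real.mul_rpow (by positivity) (abs_nonneg _), Real.mul_rpow ht.le (by positivity),
        ← Real.rpow_mul ENNReal.toReal_nonneg, one_div_mul_cancel hq.ne', Real.rpow_one, mul_assoc]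
    simp only [this]
    rw [← Finset.mul_sum, Real.mul_rpow (by positivity) (by positivity), ← Real.rpow_mul ht.le,
      mul_one_div_cancel hq.ne', Real.rpow_one]
  rw [hval]
  by_cases hik : i = k
  · subst hik; simp
  have h1 := hρ' i k hik
  have h2 : |‖z i - z k‖ - ‖x i - x k‖| ≤ θ * ‖x i - x k‖ := by
    refine (abs_norm_sub_norm_le _ _).trans ?_
    have : z i - z k - (x i - x k) = (x k - z k) - (x i - z i) := by abel
    rw [this]
    refine (norm_sub_le _ _).trans ?_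
    nlinarith [hz i, hz k]
  have h3 := abs_le.1 h2
  have h4 : t * (1 - θ) = 1 := by simp only [t, hθ]; field_simp; ring
  have h5 : t * (1 + θ) = 1 + δ := by simp only [t, hθ]; field_simp; ring
  constructor
  · calc ‖x i - x k‖ = t * ((1 - θ) * ‖x i - x k‖) := by rw [← mul_assoc, h4, one_mul]
      _ ≤ t * ‖z i - z k‖ := by gcongr; linarith
  · calc t * ‖z i - z k‖ ≤ t * ((1 + θ) * ‖x i - x k‖) := by gcongr; linarith
      _ = _ := by rw [← mul_assoc, h5]

end Crest.Agent.R232
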