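import Mathlib

set_option autoImplicit false

namespace Crest.Agent.R232

open Finset

section Heat

variable {X : Type} [Fintype X] [DecidableEq X]

/-- graph Laplacian with conductances `c`. -/
noncomputable def lap (c : X → X → ℝ) (u : X → ℝ) (x : X) : ℝ := ∑ y, c x y * (u x - u y)

/-- one step of the lazy walk. -/
noncomputable def stp (c : X → X → ℝ) (π : X → ℝ) (δ : ℝ) (u : X → ℝ) (x : X) : ℝ :=
  u x - δ * lap c u x / π x

omit [DecidableEq X] in
lemma sum_mul_lap (c : X → X → ℝ) (hc : ∀ x y, c x y = c y x) (u v : X → ℝ) :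
    ∑ x, v x * lap c u x = (1 / 2) * ∑ x, ∑ y, c x y * (u x - u y) * (v x - v y) := by
  have h1 : ∑ x, v x * lap c u x = ∑ x, ∑ y, c x y * (u x - u y) * v x := by
    refine Finset.sum_congr rfl fun x _ => ?_
    unfold lap
    rw [Finset.mul_sum]
    refine Finset.sum_congr rfl fun y _ => by ring
  have h2 : ∑ x, ∑ y, c x y * (u x - u y) * v x = ∑ x, ∑ y, -(c x y * (u x - u y) * v y) := by
    rw [Finset.sum_comm]
    refine Finset.sum_congr rfl fun x _ => Finset.sum_congr rfl fun y _ => ?_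
    rw [hc y x]; ring
  have h3 : ∑ x, ∑ y, c x y * (u x - u y) * (v x - v y) =
      ∑ x, ∑ y, c x y * (u x - u y) * v x + ∑ x, ∑ y, -(c x y * (u x - u y) * v y) := by
    rw [← Finset.sum_add_distrib]
    refine Finset.sum_congr rfl fun x _ => ?_
    rw [← Finset.sum_add_distrib]
    refine Finset.sum_congr rfl fun y _ => by ring
  rw [h3, ← h2, h1]; ring

omit [DecidableEq X] in
lemma sum_lap (c : X → X → ℝ) (hc : ∀ x y, c x y = c y x) (u : X → ℝ) :
    ∑ x, lap c u x = 0 := by
  have := sum_mul_lap c hc u (fun _ => 1)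
  simpa using this

omit [DecidableEq X] in
lemma lap_symm (c : X → X → ℝ) (hc : ∀ x y, c x y = c y x) (u v : X → ℝ) :
    ∑ x, v x * lap c u x = ∑ x, u x * lap c v x := by
  rw [sum_mul_lap c hc, sum_mul_lap c hc]
  congr 1
  refine Finset.sum_congr rfl fun x _ => Finset.sum_congr rfl fun y _ => by ring

omit [DecidableEq X] in
lemma lap_sum {ι : Type} (s : Finset ι) (c : X → X → ℝ) (w : ι → ℝ) (u : ι → X → ℝ) (x : X) :
    lap c (fun z => ∑ i ∈ s, w i * u i z) x = ∑ i ∈ s, w i * lap c (u i) x := by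
  unfold lap
  simp only [← Finset.sum_sub_distrib, Finset.mul_sum]
  rw [Finset.sum_comm]
  refine Finset.sum_congr rfl fun i _ => Finset.sum_congr rfl fun y _ => by ring

omit [DecidableEq X] in
lemma stp_sum {ι : Type} (s : Finset ι) (c : X → X → ℝ) (π : X → ℝ) (δ : ℝ) (w : ι → ℝ)
    (u : ι → X → ℝ) :
    stp c π δ (fun z => ∑ i ∈ s, w i * u i z) = fun x => ∑ i ∈ s, w i * stp c π δ (u i) x := by
  funext x
  unfold stp
  rw [lap_sum, Finset.mul_sum, Finset.sum_div, ← Finset.sum_sub_distrib]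
  refine Finset.sum_congr rfl fun i _ => by ring

omit [DecidableEq X] in
lemma stp_iter_sum {ι : Type} (s : Finset ι) (c : X → X → ℝ) (π : X → ℝ) (δ : ℝ) (w : ι → ℝ)
    (u : ι → X → ℝ) (k : ℕ) :
    (stp c π δ)^[k] (fun z => ∑ i ∈ s, w i * u i z) =
      fun x => ∑ i ∈ s, w i * (stp c π δ)^[k] (u i) x := by
  induction k with
  | zero => rfl
  | succ k ih =>
    rw [Function.iterate_succ_apply', ih, stp_sum]
    simp only [Function.iterate_succ_apply']

omit [DecidableEq X] in
lemma stp_symm (c : X → X → ℝ) (hc : ∀ x y, c x y = c y x) (π : X → ℝ) (hπ : ∀ x, 0 < π x)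
    (δ : ℝ) (u v : X → ℝ) :
    ∑ x, π x * (stp c π δ u x * v x) = ∑ x, π x * (u x * stp c π δ v x) := by
  have h1 : ∀ u v : X → ℝ, ∑ x, π x * (stp c π δ u x * v x) =
      ∑ x, π x * (u x * v x) - δ * ∑ x, v x * lap c u x := by
    intro u v
    rw [Finset.mul_sum, ← Finset.sum_sub_distrib]
    refine Finset.sum_congr rfl fun x _ => ?_
    unfold stp
    have := (hπ x).ne'
    field_simp
  have h2 := h1 v u
  rw [h1, lap_symm c hc u v]
  have h3 : ∑ x, π x * (u x * stp c π δ v x) = ∑ x, π x * (stp c π δ v x * u x) :=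
    Finset.sum_congr rfl fun x _ => by ring
  rw [h3, h2]
  congr 1
  exact Finset.sum_congr rfl fun x _ => by ring

omit [DecidableEq X] in
lemma stp_iter_symm (c : X → X → ℝ) (hc : ∀ x y, c x y = c y x) (π : X → ℝ) (hπ : ∀ x, 0 < π x)
    (δ : ℝ) (k : ℕ) (u v : X → ℝ) :
    ∑ x, π x * ((stp c π δ)^[k] u x * v x) = ∑ x, π x * (u x * (stp c π δ)^[k] v x) := by
  induction k generalizing v with
  | zero => rfl
  | succ k ih =>
    rw [Function.iterate_succ_apply', stp_symm c hc π hπ, ih, Function.iterate_succ_apply]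

/-- heat kernel -/
noncomputable def hk (c : X → X → ℝ) (π : X → ℝ) (δ : ℝ) (k : ℕ) (v : X) : X → ℝ :=
  (stp c π δ)^[k] (fun x => if x = v then 1 / π v else 0)

lemma iter_eq_sum_hk (c : X → X → ℝ) (π : X → ℝ) (hπ : ∀ x, 0 < π x) (δ : ℝ) (k : ℕ)
    (u : X → ℝ) (x : X) :
    (stp c π δ)^[k] u x = ∑ v, (π v * u v) * hk c π δ k v x := by
  have : u = fun z => ∑ v, (π v * u v) * (fun x => if x = v then 1 / π v else 0) z := by
    funext z
    simp only [mul_ite, mul_zero]
    rw [Finset.sum_ite_eq]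
    have := (hπ z).ne'
    simp only [Finset.mem_univ, if_true]
    field_simp
  conv_lhs => rw [this]
  rw [stp_iter_sum]
  rfl

lemma iter_div_eq (c : X → X → ℝ) (hc : ∀ x y, c x y = c y x) (π : X → ℝ) (hπ : ∀ x, 0 < π x)
    (δ : ℝ) (k : ℕ) (b : X → ℝ) (v : X) :
    (stp c π δ)^[k] (fun x => b x / π x) v = ∑ z, b z * hk c π δ k v z := by
  have h := stp_iter_symm c hc π hπ δ k (fun x => b x / π x) (fun x => if x = v then 1 / π v else 0)
  simp only [mul_ite, mul_zero] at h
  rw [Finset.sum_ite_eq'] at h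
  simp only [Finset.mem_univ, if_true] at h
  have hv := (hπ v).ne'
  have h2 : π v * ((stp c π δ)^[k] (fun x => b x / π x) v * (1 / π v)) =
      (stp c π δ)^[k] (fun x => b x / π x) v := by field_simp
  rw [h2] at h
  rw [h]
  refine Finset.sum_congr rfl fun z _ => ?_
  have := (hπ z).ne'
  unfold hk
  field_simp

/-- transition probabilities -/
noncomputable def trans (c : X → X → ℝ) (π : X → ℝ) (δ : ℝ) (x y : X) : ℝ :=
  δ * c x y / π x + if x = y then 1 - δ * (∑ z, c x z) / π x else 0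

lemma stp_eq_trans (c : X → X → ℝ) (π : X → ℝ) (δ : ℝ) (u : X → ℝ) (x : X) :
    stp c π δ u x = ∑ y, trans c π δ x y * u y := by
  unfold stp trans lap
  simp only [add_mul, Finset.sum_add_distrib, ite_mul, zero_mul, Finset.sum_ite_eq,
    Finset.mem_univ, if_true, mul_sub, Finset.sum_sub_distrib]
  rw [← Finset.sum_mul]
  have : ∑ y, δ * c x y / π x * u y = δ * (∑ y, c x y * u y) / π x := by
    rw [Finset.mul_sum, Finset.sum_div]
    exact Finset.sum_congr rfl fun y _ => by ring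
  rw [this]; ring

lemma sum_trans (c : X → X → ℝ) (π : X → ℝ) (δ : ℝ) (x : X) : ∑ y, trans c π δ x y = 1 := by
  have := stp_eq_trans c π δ (fun _ => 1) x
  simp only [stp, lap, sub_self, mul_zero, Finset.sum_const_zero, zero_div, sub_zero,
    mul_one] at this
  exact this.symm

lemma log_bound (a b : ℝ) (ha : 0 ≤ a) (hb : 0 < b) :
    (Real.sqrt a - Real.sqrt b) ^ 2 ≤ a * Real.log a - a * Real.log b - a + b := by
  rcases ha.eq_or_lt with rfl | ha
  · simp [Real.sq_sqrt hb.le]
  · set s := Real.sqrt a with hs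
    set t := Real.sqrt b with ht
    have hs0 : 0 < s := Real.sqrt_pos.2 ha
    have ht0 : 0 < t := Real.sqrt_pos.2 hb
    have hsa : a = s ^ 2 := (Real.sq_sqrt ha.le).symm
    have htb : b = t ^ 2 := (Real.sq_sqrt hb.le).symm
    have h1 : Real.log (t / s) ≤ t / s - 1 := Real.log_le_sub_one_of_pos (by positivity)
    rw [Real.log_div ht0.ne' hs0.ne'] at h1
    have h2 : s ^ 2 * (Real.log t - Real.log s) ≤ s ^ 2 * (t / s - 1) :=
      mul_le_mul_of_nonneg_left h1 (by positivity)
    have h3 : s ^ 2 * (t / s - 1) = s * t - s ^ 2 := by field_simp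
    rw [hsa, htb, Real.log_pow, Real.log_pow]
    push_cast
    nlinarith

/-- relative entropy -/
noncomputable def ent (π : X → ℝ) (q : X → ℝ) : ℝ := ∑ x, π x * (q x * Real.log (q x))

lemma ent_drop (c : X → X → ℝ) (hc : ∀ x y, c x y = c y x) (hc0 : ∀ x y, 0 ≤ c x y)
    (π : X → ℝ) (hπ : ∀ x, 0 < π x) (δ : ℝ) (hδ : 0 < δ)
    (hlazy : ∀ x, δ * (∑ z, c x z) ≤ π x / 2) (q : X → ℝ) (hq : ∀ x, 0 ≤ q x)
    (hpos : ∀ x, 0 < stp c π δ q x) :
    δ / 2 * ∑ x, ∑ y, c x y * (Real.sqrt (q x) - Real.sqrt (q y)) ^ 2 ≤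
      ent π q - ent π (stp c π δ q) := by
  have hstat : ent π q = ∑ x, π x * ∑ y, trans c π δ x y * (q y * Real.log (q y)) := by
    have := stp_symm c hc π hπ δ (fun y => q y * Real.log (q y)) (fun _ => 1)
    simp only [mul_one] at this
    have h1 : stp c π δ (fun _ => (1 : ℝ)) = fun _ => 1 := by
      funext x; simp [stp, lap]
    rw [h1] at this
    simp only [mul_one] at this
    unfold ent
    rw [← this]
    refine Finset.sum_congr rfl fun x _ => ?_
    rw [stp_eq_trans]
  rw [hstat]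
  unfold ent
  rw [← Finset.sum_sub_distrib, Finset.mul_sum]
  refine Finset.sum_le_sum fun x _ => ?_
  set b := stp c π δ q x with hb
  have hbt : b = ∑ y, trans c π δ x y * q y := stp_eq_trans c π δ q x
  have hb0 : 0 < b := hpos x
  have hπx := hπ x
  have hdiag : 0 ≤ 1 - δ * (∑ z, c x z) / π x - δ * (∑ z, c x z) / π x := by
    have : δ * (∑ z, c x z) / π x ≤ 1 / 2 := by
      rw [div_le_iff₀ hπx]; linarith [hlazy x]
    linarith
  have hdiag' : 0 ≤ δ * (∑ z, c x z) / π x := by
    have : 0 ≤ ∑ z, c x z := Finset.sum_nonneg fun z _ => hc0 x z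
    positivity
  have htr : ∀ y, 0 ≤ trans c π δ x y := by
    intro y
    unfold trans
    have := hc0 x y
    have h1 : 0 ≤ δ * c x y / π x := by positivity
    split_ifs
    · linarith
    · linarith
  have e1 : ∑ y, trans c π δ x y * (q y * Real.log (q y)) - b * Real.log b =
      ∑ y, trans c π δ x y * (q y * Real.log (q y) - q y * Real.log b - q y + b) := by
    have : ∑ y, trans c π δ x y * (q y * Real.log (q y) - q y * Real.log b - q y + b) =
        ∑ y, trans c π δ x y * (q y * Real.log (q y)) -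
          (∑ y, trans c π δ x y * q y) * Real.log b - (∑ y, trans c π δ x y * q y) +
          (∑ y, trans c π δ x y) * b := by
      rw [Finset.sum_mul, Finset.sum_mul, ← Finset.sum_sub_distrib, ← Finset.sum_sub_distrib,
        ← Finset.sum_add_distrib]
      exact Finset.sum_congr rfl fun y _ => by ring
    rw [this, ← hbt, sum_trans]; ring
  have e2 : ∑ y, trans c π δ x y * (Real.sqrt (q y) - Real.sqrt b) ^ 2 ≤
      ∑ y, trans c π δ x y * (q y * Real.log (q y) - q y * Real.log b - q y + b) :=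
    Finset.sum_le_sum fun y _ => mul_le_mul_of_nonneg_left (log_bound _ _ (hq y) hb0) (htr y)
  have e3 : ∑ y, trans c π δ x y * (Real.sqrt (q y) - Real.sqrt b) ^ 2 =
      ∑ y, δ * c x y / π x * (Real.sqrt (q y) - Real.sqrt b) ^ 2 +
        (1 - δ * (∑ z, c x z) / π x) * (Real.sqrt (q x) - Real.sqrt b) ^ 2 := by
    unfold trans
    simp only [add_mul, Finset.sum_add_distrib, ite_mul, zero_mul, Finset.sum_ite_eq,
      Finset.mem_univ, if_true]
  have e4 : δ * (∑ z, c x z) / π x * (Real.sqrt (q x) - Real.sqrt b) ^ 2 =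
      ∑ y, δ * c x y / π x * (Real.sqrt (q x) - Real.sqrt b) ^ 2 := by
    rw [Finset.mul_sum, Finset.sum_div, Finset.sum_mul]
  have e5 : ∑ y, δ * c x y / π x * ((Real.sqrt (q x) - Real.sqrt (q y)) ^ 2 / 2) ≤
      ∑ y, δ * c x y / π x * (Real.sqrt (q y) - Real.sqrt b) ^ 2 +
      ∑ y, δ * c x y / π x * (Real.sqrt (q x) - Real.sqrt b) ^ 2 := by
    rw [← Finset.sum_add_distrib]
    refine Finset.sum_le_sum fun y _ => ?_
    rw [← mul_add]
    have := hc0 x y
    refine mul_le_mul_of_nonneg_left ?_ (by positivity)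
    nlinarith [sq_nonneg (Real.sqrt (q x) + Real.sqrt (q y) - 2 * Real.sqrt b)]
  have e6 : δ / 2 * ∑ y, c x y * (Real.sqrt (q x) - Real.sqrt (q y)) ^ 2 =
      π x * ∑ y, δ * c x y / π x * ((Real.sqrt (q x) - Real.sqrt (q y)) ^ 2 / 2) := by
    rw [Finset.mul_sum, Finset.mul_sum]
    refine Finset.sum_congr rfl fun y _ => ?_
    field_simp
  rw [e6, ← mul_sub, e1]
  refine mul_le_mul_of_nonneg_left ?_ hπx.le
  have e7 := mul_nonneg hdiag (sq_nonneg (Real.sqrt (q x) - Real.sqrt b))
  nlinarith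

end Heat

end Crest.Agent.R232
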