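import Mathlib
import Crest.Agent.R232.Heat

set_option autoImplicit false

namespace Crest.Agent.R232

open Finset Filter Topology

section

variable {X : Type} [Fintype X] [DecidableEq X]

lemma trans_pos (c : X → X → ℝ) (hc0 : ∀ x y, 0 ≤ c x y) (hcp : ∀ x y, x ≠ y → 0 < c x y)
    (π : X → ℝ) (hπ : ∀ x, 0 < π x) (δ : ℝ) (hδ : 0 < δ)
    (hlazy : ∀ x, δ * (∑ z, c x z) ≤ π x / 2) (x y : X) : 0 < trans c π δ x y := by
  unfold trans
  have hπx := hπ x
  split_ifs with h
  · have : δ * (∑ z, c x z) / π x ≤ 1 / 2 := by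
      rw [div_le_iff₀ hπx]; linarith [hlazy x]
    have h1 : 0 ≤ δ * c x y / π x := by have := hc0 x y; positivity
    linarith
  · have := hcp x y h
    rw [add_zero]; positivity

lemma hk_props (c : X → X → ℝ) (hc : ∀ x y, c x y = c y x) (hc0 : ∀ x y, 0 ≤ c x y)
    (hcp : ∀ x y, x ≠ y → 0 < c x y)
    (π : X → ℝ) (hπ : ∀ x, 0 < π x) (δ : ℝ) (hδ : 0 < δ)
    (hlazy : ∀ x, δ * (∑ z, c x z) ≤ π x / 2) (v : X) (k : ℕ) :
    (∀ x, 0 ≤ hk c π δ k v x) ∧ ∑ x, π x * hk c π δ k v x = 1 ∧
      ∀ x, 0 < stp c π δ (hk c π δ k v) x := by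
  have key : ∀ q : X → ℝ, (∀ x, 0 ≤ q x) → ∑ x, π x * q x = 1 → ∀ x, 0 < stp c π δ q x := by
    intro q hq h1 x
    rw [stp_eq_trans]
    obtain ⟨y, -, hy⟩ : ∃ y ∈ (Finset.univ : Finset X), π y * q y ≠ 0 := by
      apply Finset.exists_ne_zero_of_sum_ne_zero
      rw [h1]; exact one_ne_zero
    have hy' : 0 < q y := lt_of_le_of_ne (hq y) (fun h => hy (by rw [← h, mul_zero]))
    refine Finset.sum_pos' (fun z _ => mul_nonneg (trans_pos c hc0 hcp π hπ δ hδ hlazy x z).le
      (hq z)) ⟨y, Finset.mem_univ _, mul_pos (trans_pos c hc0 hcp π hπ δ hδ hlazy x y) hy'⟩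
  have h12 : (∀ x, 0 ≤ hk c π δ k v x) ∧ ∑ x, π x * hk c π δ k v x = 1 := by
    induction k with
    | zero =>
      constructor
      · intro x
        simp only [hk, Function.iterate_zero, id]
        have := hπ v
        split_ifs <;> positivity
      · simp only [hk, Function.iterate_zero, id, mul_ite, mul_zero]
        rw [Finset.sum_ite_eq']
        have := (hπ v).ne'
        simp only [Finset.mem_univ, if_true]
        field_simp
    | succ k ih =>
      have e : hk c π δ (k + 1) v = stp c π δ (hk c π δ k v) := by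
        unfold hk; rw [Function.iterate_succ_apply']
      rw [e]
      refine ⟨fun x => (key _ ih.1 ih.2 x).le, ?_⟩
      have := stp_symm c hc π hπ δ (hk c π δ k v) (fun _ => 1)
      have h1 : stp c π δ (fun _ => (1 : ℝ)) = fun _ => 1 := by
        funext x; simp [stp, lap]
      rw [h1] at this
      simp only [mul_one] at this
      rw [this, ih.2]
  exact ⟨h12.1, h12.2, key _ h12.1 h12.2⟩

omit [DecidableEq X] in
lemma ent_nonneg (π : X → ℝ) (hπ : ∀ x, 0 < π x) (hπ1 : ∑ x, π x = 1) (q : X → ℝ)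
    (hq : ∀ x, 0 ≤ q x) (h1 : ∑ x, π x * q x = 1) : 0 ≤ ent π q := by
  have : ∑ x, π x * (q x - 1) ≤ ent π q := by
    refine Finset.sum_le_sum fun x _ => mul_le_mul_of_nonneg_left ?_ (hπ x).le
    have := log_bound (q x) 1 (hq x) one_pos
    simp only [Real.log_one, mul_zero, sub_zero] at this
    nlinarith [sq_nonneg (Real.sqrt (q x) - Real.sqrt 1)]
  simp only [mul_sub, Finset.sum_sub_distrib, mul_one, h1, hπ1] at this
  linarith

lemma ent_hk_zero (c : X → X → ℝ) (π : X → ℝ) (hπ : ∀ x, 0 < π x) (δ : ℝ) (v : X) :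
    ent π (hk c π δ 0 v) = - Real.log (π v) := by
  unfold ent hk
  simp only [Function.iterate_zero, id]
  rw [Finset.sum_eq_single v]
  · have := (hπ v).ne'
    simp only [if_true, one_div, Real.log_inv]
    field_simp
  · intro b _ hb; simp [hb]
  · simp

omit [DecidableEq X] in
lemma entropy_le_log_card (π : X → ℝ) (hπ : ∀ x, 0 < π x) (hπ1 : ∑ x, π x = 1) :
    ∑ v, π v * (- Real.log (π v)) ≤ Real.log (Fintype.card X) := by
  have hne : Nonempty X := by
    by_contra h
    rw [not_nonempty_iff] at h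
    simp at hπ1
  have hn : (0 : ℝ) < Fintype.card X := by exact_mod_cast Fintype.card_pos
  have : ∑ v, π v * (- Real.log (π v)) ≤
      ∑ v, (π v * Real.log (Fintype.card X) + (1 / Fintype.card X - π v)) := by
    refine Finset.sum_le_sum fun v _ => ?_
    have hv := hπ v
    have h1 : Real.log (1 / (Fintype.card X * π v)) ≤ 1 / (Fintype.card X * π v) - 1 :=
      Real.log_le_sub_one_of_pos (by positivity)
    rw [one_div, Real.log_inv, Real.log_mul hn.ne' hv.ne'] at h1
    have h2 := mul_le_mul_of_nonneg_left h1 hv.le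
    have h3 : π v * (((Fintype.card X : ℝ) * π v)⁻¹ - 1) = 1 / Fintype.card X - π v := by
      field_simp
    rw [h3] at h2
    linarith
  rw [Finset.sum_add_distrib, ← Finset.sum_mul, hπ1, Finset.sum_sub_distrib, hπ1] at this
  simp only [Finset.sum_const, Finset.card_univ, nsmul_eq_mul] at this
  have h4 : (Fintype.card X : ℝ) * (1 / Fintype.card X) = 1 := by field_simp
  linarith

lemma lap_eq_zero_const (c : X → X → ℝ) (hc : ∀ x y, c x y = c y x) (hc0 : ∀ x y, 0 ≤ c x y)
    (hcp : ∀ x y, x ≠ y → 0 < c x y) (u : X → ℝ)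
    (hu : ∑ x, ∑ y, c x y * (u x - u y) * (u x - u y) ≤ 0) (x y : X) : u x = u y := by
  by_contra hne
  have hxy : x ≠ y := fun h => hne (by rw [h])
  have hnn : ∀ x y, 0 ≤ c x y * (u x - u y) * (u x - u y) := fun x y => by
    rw [mul_assoc]; exact mul_nonneg (hc0 x y) (mul_self_nonneg _)
  have h1 : 0 < c x y * (u x - u y) * (u x - u y) := by
    rw [mul_assoc]; exact mul_pos (hcp x y hxy) (mul_self_pos.2 (sub_ne_zero.2 hne))
  have h2 : 0 < ∑ x, ∑ y, c x y * (u x - u y) * (u x - u y) :=
    Finset.sum_pos' (fun x _ => Finset.sum_nonneg fun y _ => hnn x y)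
      ⟨x, Finset.mem_univ _, Finset.sum_pos' (fun y _ => hnn x y) ⟨y, Finset.mem_univ _, h1⟩⟩
  linarith

lemma exists_lap_eq (c : X → X → ℝ) (hc : ∀ x y, c x y = c y x) (hc0 : ∀ x y, 0 ≤ c x y)
    (hcp : ∀ x y, x ≠ y → 0 < c x y) (π : X → ℝ) (hπ1 : ∑ x, π x = 1)
    (b : X → ℝ) (hb : ∑ x, b x = 0) : ∃ U : X → ℝ, ∀ x, lap c U x = b x := by
  let B : (X → ℝ) →ₗ[ℝ] (X → ℝ) :=
    { toFun := fun u x => lap c u x + π x * ∑ z, π z * u z
      map_add' := by
        intro u v; funext x
        simp only [lap, Pi.add_apply, mul_add, Finset.sum_add_distrib]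
        rw [show ∑ y, c x y * (u x + v x - (u y + v y)) =
          ∑ y, c x y * (u x - u y) + ∑ y, c x y * (v x - v y) by
            rw [← Finset.sum_add_distrib]; exact Finset.sum_congr rfl fun y _ => by ring]
        ring
      map_smul' := by
        intro r u; funext x
        simp only [lap, Pi.smul_apply, smul_eq_mul, RingHom.id_apply, mul_add, Finset.mul_sum]
        congr 1
        · exact Finset.sum_congr rfl fun y _ => by ring
        · exact Finset.sum_congr rfl fun y _ => by ring }
  have hB : ∀ u x, B u x = lap c u x + π x * ∑ z, π z * u z := fun u x => rfl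
  have hinj : Function.Injective B := by
    rw [← LinearMap.ker_eq_bot, LinearMap.ker_eq_bot']
    intro u hu
    have h0 : ∀ x, lap c u x + π x * ∑ z, π z * u z = 0 := fun x => by
      rw [← hB, hu]; rfl
    have h1 : ∑ z, π z * u z = 0 := by
      have : ∑ x, (lap c u x + π x * ∑ z, π z * u z) = 0 := Finset.sum_eq_zero fun x _ => h0 x
      rw [Finset.sum_add_distrib, sum_lap c hc, ← Finset.sum_mul, hπ1] at this
      linarith
    have h2 : ∀ x, lap c u x = 0 := fun x => by have := h0 x; rw [h1] at this; linarith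
    have h3 := sum_mul_lap c hc u u
    simp only [h2, mul_zero, Finset.sum_const_zero] at h3
    have h4 := lap_eq_zero_const c hc hc0 hcp u (by linarith)
    funext x
    have : ∑ z, π z * u z = u x := by
      rw [show ∑ z, π z * u z = ∑ z, π z * u x from
        Finset.sum_congr rfl fun z _ => by rw [h4 z x], ← Finset.sum_mul, hπ1, one_mul]
    rw [Pi.zero_apply, ← this, h1]
  obtain ⟨U, hU⟩ := (LinearMap.injective_iff_surjective.1 hinj) b
  have h0 : ∀ x, lap c U x + π x * ∑ z, π z * U z = b x := fun x => by rw [← hB, hU]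
  have h1 : ∑ z, π z * U z = 0 := by
    have : ∑ x, (lap c U x + π x * ∑ z, π z * U z) = ∑ x, b x :=
      Finset.sum_congr rfl fun x _ => h0 x
    rw [Finset.sum_add_distrib, sum_lap c hc, ← Finset.sum_mul, hπ1, hb] at this
    linarith
  exact ⟨U, fun x => by have := h0 x; rw [h1] at this; linarith⟩

omit [DecidableEq X] in
lemma telescope (c : X → X → ℝ) (π : X → ℝ) (δ : ℝ) (U b : X → ℝ) (hU : ∀ x, lap c U x = b x)
    (N : ℕ) (x : X) :
    U x = (stp c π δ)^[N] U x + δ * ∑ k ∈ range N, (stp c π δ)^[k] (fun z => b z / π z) x := by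
  induction N with
  | zero => simp
  | succ N ih =>
    rw [Finset.sum_range_succ, Function.iterate_succ_apply]
    have : stp c π δ U = fun z => ∑ i ∈ (Finset.univ : Finset (Fin 2)),
        (![1, -δ] i) * (![U, fun z => b z / π z] i) z := by
      funext z
      simp only [Fin.sum_univ_two, Matrix.cons_val_zero, Matrix.cons_val_one, stp, hU]
      ring
    rw [this, stp_iter_sum]
    simp only [Fin.sum_univ_two, Matrix.cons_val_zero, Matrix.cons_val_one]
    linarith

lemma sum_range_two_mul (g : ℕ → ℝ) (K : ℕ) :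
    ∑ k ∈ range (K + K), g k = ∑ i ∈ range K, (g (i + i) + g (i + (i + 1))) := by
  induction K with
  | zero => simp
  | succ K ih =>
    rw [show K + 1 + (K + 1) = K + K + 1 + 1 by ring, Finset.sum_range_succ, Finset.sum_range_succ,
      ih, Finset.sum_range_succ]
    rw [show K + (K + 1) = K + K + 1 by ring]
    ring

end

/-- Localization of electrical flows + the orthogonal projection onto gradients. -/
theorem exists_electrical (X : Type) [Fintype X] [DecidableEq X] (d W : X → X → ℝ)
    (hd : ∀ x y, x ≠ y → 0 < d x y) (hds : ∀ x y, d x y = d y x)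
    (hW : ∀ x y, x ≠ y → 0 < W x y) (hWs : ∀ x y, W x y = W y x) (hW0 : ∀ x, W x x = 0)
    (hW1 : ∑ e : X × X, W e.1 e.2 = 1) :
    ∃ A : X → X × X → ℝ,
      (∀ (u : X → ℝ) (x y : X), ∑ f : X × X, (A x f - A y f) * ((u f.1 - u f.2) / d f.1 f.2) = u x - u y) ∧
      (∀ β : X × X → ℝ, ∑ e : X × X, W e.1 e.2 * (∑ f, (A e.1 f - A e.2 f) / d e.1 e.2 * β f) ^ 2 ≤
        ∑ e : X × X, W e.1 e.2 * β e ^ 2) ∧
      ∑ e : X × X, W e.1 e.2 * ∑ f, |(A e.1 f - A e.2 f) / d e.1 e.2| ≤
        8 * Real.log (Fintype.card X) := by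
  have hWnn : ∀ x y, 0 ≤ W x y := fun x y => by
    by_cases h : x = y
    · rw [h, hW0]
    · exact (hW x y h).le
  set c : X → X → ℝ := fun x y => W x y / d x y ^ 2 with hcdef
  set a : X → X → ℝ := fun x y => W x y / d x y with hadef
  have hc : ∀ x y, c x y = c y x := fun x y => by simp only [hcdef, hWs x y, hds x y]
  have has : ∀ x y, a x y = a y x := fun x y => by simp only [hadef, hWs x y, hds x y]
  have hc0 : ∀ x y, 0 ≤ c x y := fun x y => div_nonneg (hWnn x y) (sq_nonneg _)
  have hcp : ∀ x y, x ≠ y → 0 < c x y := fun x y h => div_pos (hW x y h) (pow_pos (hd x y h) 2)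
  have ha0 : ∀ x y, 0 ≤ a x y := fun x y => by
    by_cases h : x = y
    · simp [hadef, h, hW0]
    · exact (div_pos (hW x y h) (hd x y h)).le
  have hasq : ∀ x y, a x y ^ 2 = W x y * c x y := fun x y => by
    simp only [hadef, hcdef]; ring
  set π : X → ℝ := fun x => ∑ y, W x y with hπdef
  have hπ1 : ∑ x, π x = 1 := by rw [← hW1, Fintype.sum_prod_type]
  have hπ : ∀ x, 0 < π x := by
    obtain ⟨e, -, he⟩ : ∃ e ∈ (Finset.univ : Finset (X × X)), W e.1 e.2 ≠ 0 := by
      apply Finset.exists_ne_zero_of_sum_ne_zero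
      rw [hW1]; exact one_ne_zero
    have hne : e.1 ≠ e.2 := fun h => he (by rw [h, hW0])
    intro x
    obtain ⟨y, hy⟩ : ∃ y, x ≠ y := by
      by_cases h : x = e.1
      · exact ⟨e.2, h ▸ hne⟩
      · exact ⟨e.1, h⟩
    exact Finset.sum_pos' (fun z _ => hWnn x z) ⟨y, Finset.mem_univ _, hW x y hy⟩
  -- unit currents
  set b : X × X → X → ℝ := fun f x =>
    a f.1 f.2 / 2 * ((if x = f.1 then 1 else 0) - (if x = f.2 then 1 else 0)) with hbdef
  have hb : ∀ f, ∑ x, b f x = 0 := fun f => by
    simp only [hbdef]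
    rw [← Finset.mul_sum, Finset.sum_sub_distrib, Finset.sum_ite_eq', Finset.sum_ite_eq']
    simp
  have hbv : ∀ (f : X × X) (v : X → ℝ), ∑ z, b f z * v z = a f.1 f.2 / 2 * (v f.1 - v f.2) := by
    intro f v
    simp only [hbdef, mul_assoc, sub_mul, ite_mul, one_mul, zero_mul]
    rw [← Finset.mul_sum, Finset.sum_sub_distrib, Finset.sum_ite_eq', Finset.sum_ite_eq']
    simp
  choose U hU using fun f => exists_lap_eq c hc hc0 hcp π hπ1 (b f) (hb f)
  -- weak form of the equation
  have hweak : ∀ (β : X × X → ℝ) (v : X → ℝ),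
      ∑ x, ∑ y, c x y * ((∑ f, β f * U f x) - ∑ f, β f * U f y) * (v x - v y) =
        ∑ f : X × X, β f * a f.1 f.2 * (v f.1 - v f.2) := by
    intro β v
    have h1 := sum_mul_lap c hc (fun x => ∑ f, β f * U f x) v
    have h2 : ∑ x, v x * lap c (fun x => ∑ f, β f * U f x) x =
        ∑ f, β f * ∑ x, b f x * v x := by
      simp only [lap_sum, hU, Finset.mul_sum]
      rw [Finset.sum_comm]
      exact Finset.sum_congr rfl fun f _ => Finset.sum_congr rfl fun x _ => by ring
    rw [h2] at h1
    simp only [hbv] at h1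
    have h3 : ∑ f : X × X, β f * a f.1 f.2 * (v f.1 - v f.2) =
        2 * ∑ f : X × X, β f * (a f.1 f.2 / 2 * (v f.1 - v f.2)) := by
      rw [Finset.mul_sum]; exact Finset.sum_congr rfl fun f _ => by ring
    rw [h3, h1]; ring
  refine ⟨fun x f => U f x, ?_, ?_, ?_⟩
  · intro u x y
    set β : X × X → ℝ := fun f => (u f.1 - u f.2) / d f.1 f.2 with hβ
    set V : X → ℝ := fun x => (∑ f, β f * U f x) - u x with hV
    have h1 := hweak β V
    have h2 : ∑ f : X × X, β f * a f.1 f.2 * (V f.1 - V f.2) =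
        ∑ x, ∑ y, c x y * (u x - u y) * (V x - V y) := by
      rw [Fintype.sum_prod_type]
      refine Finset.sum_congr rfl fun x _ => Finset.sum_congr rfl fun y _ => ?_
      simp only [hβ, hadef, hcdef]; ring
    have h3 : ∑ x, ∑ y, c x y * (V x - V y) * (V x - V y) ≤ 0 := by
      have : ∑ x, ∑ y, c x y * (V x - V y) * (V x - V y) =
          ∑ x, ∑ y, c x y * ((∑ f, β f * U f x) - ∑ f, β f * U f y) * (V x - V y) -
            ∑ x, ∑ y, c x y * (u x - u y) * (V x - V y) := by
        rw [← Finset.sum_sub_distrib]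
        refine Finset.sum_congr rfl fun x _ => ?_
        rw [← Finset.sum_sub_distrib]
        refine Finset.sum_congr rfl fun y _ => ?_
        simp only [hV]; ring
      rw [this, h1, h2, sub_self]
    have h4 := lap_eq_zero_const c hc hc0 hcp V h3 x y
    simp only [hV] at h4
    have h5 : ∑ f : X × X, (U f x - U f y) * ((u f.1 - u f.2) / d f.1 f.2) =
        (∑ f, β f * U f x) - ∑ f, β f * U f y := by
      rw [← Finset.sum_sub_distrib]
      exact Finset.sum_congr rfl fun f _ => by simp only [hβ]; ring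
    rw [h5]; linarith
  · intro β
    set V : X → ℝ := fun x => ∑ f, β f * U f x with hV
    have h1 := hweak β V
    have h2 : ∑ e : X × X, W e.1 e.2 * (∑ f, (U f e.1 - U f e.2) / d e.1 e.2 * β f) ^ 2 =
        ∑ e : X × X, c e.1 e.2 * (V e.1 - V e.2) ^ 2 := by
      refine Finset.sum_congr rfl fun e _ => ?_
      have : ∑ f, (U f e.1 - U f e.2) / d e.1 e.2 * β f = (V e.1 - V e.2) / d e.1 e.2 := by
        simp only [hV]
        rw [← Finset.sum_sub_distrib, Finset.sum_div]
        exact Finset.sum_congr rfl fun f _ => by ring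
      rw [this]; simp only [hcdef]; ring
    have h3 : ∑ e : X × X, c e.1 e.2 * (V e.1 - V e.2) ^ 2 =
        ∑ f : X × X, β f * a f.1 f.2 * (V f.1 - V f.2) := by
      rw [← h1, Fintype.sum_prod_type]
      exact Finset.sum_congr rfl fun x _ => Finset.sum_congr rfl fun y _ => by
        simp only [hV]; ring
    have h4 : (∑ f : X × X, β f * a f.1 f.2 * (V f.1 - V f.2)) ≤
        ∑ e : X × X, (W e.1 e.2 * β e ^ 2 + c e.1 e.2 * (V e.1 - V e.2) ^ 2) / 2 := by
      refine Finset.sum_le_sum fun e _ => ?_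
      by_cases h : e.1 = e.2
      · simp [hadef, hcdef, h, hW0]
      · have hd' := hd _ _ h
        have hw := hWnn e.1 e.2
        have : (W e.1 e.2 * β e ^ 2 + c e.1 e.2 * (V e.1 - V e.2) ^ 2) / 2 -
            β e * a e.1 e.2 * (V e.1 - V e.2) =
            W e.1 e.2 * (β e - (V e.1 - V e.2) / d e.1 e.2) ^ 2 / 2 := by
          simp only [hadef, hcdef]; field_simp; ring
        have h5 : 0 ≤ W e.1 e.2 * (β e - (V e.1 - V e.2) / d e.1 e.2) ^ 2 / 2 := by positivity
        linarith
    rw [← Finset.sum_div, Finset.sum_add_distrib] at h4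
    rw [h2]; linarith
  · -- localization
    obtain ⟨δ, hδ, hlazy⟩ : ∃ δ : ℝ, 0 < δ ∧ ∀ x, δ * (∑ z, c x z) ≤ π x / 2 := by
      set S : ℝ := ∑ x, (∑ z, c x z) / π x with hS
      have hSx : ∀ x, (∑ z, c x z) / π x ≤ S := fun x =>
        Finset.single_le_sum (f := fun x => (∑ z, c x z) / π x)
          (fun y _ => div_nonneg (Finset.sum_nonneg fun z _ => hc0 y z) (hπ y).le)
          (Finset.mem_univ x)
      have hS0 : 0 ≤ S := Finset.sum_nonneg fun y _ =>
        div_nonneg (Finset.sum_nonneg fun z _ => hc0 y z) (hπ y).le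
      refine ⟨1 / (2 * (S + 1)), by positivity, fun x => ?_⟩
      have h1 := hSx x
      rw [div_le_iff₀ (hπ x)] at h1
      rw [div_mul_eq_mul_div, one_mul, div_le_div_iff₀ (by positivity) (by norm_num)]
      nlinarith [hπ x]
    set q : ℕ → X → X → ℝ := fun i v => hk c π δ i v with hq
    have hqp := fun v k => hk_props c hc hc0 hcp π hπ δ hδ hlazy v k
    set A : ℕ → X → ℝ := fun i v => ∑ e : X × X, a e.1 e.2 * |q i v e.1 - q i v e.2| with hA
    have hA0 : ∀ i v, 0 ≤ A i v := fun i v =>
      Finset.sum_nonneg fun e _ => mul_nonneg (ha0 _ _) (abs_nonneg _)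
    have hAent : ∀ i v, δ * A i v ^ 2 ≤ 8 * (ent π (q i v) - ent π (q (i + 1) v)) := by
      intro i v
      obtain ⟨h0, h1, h2⟩ := hqp v i
      have hdrop := ent_drop c hc hc0 π hπ δ hδ hlazy (q i v) h0 h2
      have e0 : q (i + 1) v = stp c π δ (q i v) := by
        simp only [hq, hk]; rw [Function.iterate_succ_apply']
      rw [e0]
      have hcs : A i v ^ 2 ≤
          (∑ e : X × X, W e.1 e.2 * (Real.sqrt (q i v e.1) + Real.sqrt (q i v e.2)) ^ 2) *
          ∑ e : X × X, c e.1 e.2 * (Real.sqrt (q i v e.1) - Real.sqrt (q i v e.2)) ^ 2 := by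
        refine Finset.sum_sq_le_sum_mul_sum_of_sq_le_mul _
          (fun e _ => mul_nonneg (hWnn _ _) (sq_nonneg _))
          (fun e _ => mul_nonneg (hc0 _ _) (sq_nonneg _)) (fun e _ => ?_)
        rw [mul_pow, sq_abs, hasq]
        have s1 := Real.sq_sqrt (h0 e.1)
        have s2 := Real.sq_sqrt (h0 e.2)
        have : q i v e.1 - q i v e.2 = (Real.sqrt (q i v e.1) + Real.sqrt (q i v e.2)) *
            (Real.sqrt (q i v e.1) - Real.sqrt (q i v e.2)) := by
          simp only [hq]; nlinarith
        rw [this]; exact le_of_eq (by ring)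
      have hW4 : ∑ e : X × X, W e.1 e.2 * (Real.sqrt (q i v e.1) + Real.sqrt (q i v e.2)) ^ 2
          ≤ 4 := by
        have h5 : ∑ e : X × X, W e.1 e.2 * (Real.sqrt (q i v e.1) + Real.sqrt (q i v e.2)) ^ 2 ≤
            ∑ e : X × X, (2 * (W e.1 e.2 * q i v e.1) + 2 * (W e.2 e.1 * q i v e.2)) := by
          refine Finset.sum_le_sum fun e _ => ?_
          have s1 := Real.sq_sqrt (h0 e.1)
          have s2 := Real.sq_sqrt (h0 e.2)
          rw [← hWs e.1 e.2]
          have : (Real.sqrt (q i v e.1) + Real.sqrt (q i v e.2)) ^ 2 ≤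
              2 * q i v e.1 + 2 * q i v e.2 := by
            simp only [hq]
            nlinarith [sq_nonneg (Real.sqrt (hk c π δ i v e.1) - Real.sqrt (hk c π δ i v e.2))]
          nlinarith [hWnn e.1 e.2]
        have h6 : ∑ e : X × X, W e.1 e.2 * q i v e.1 = 1 := by
          rw [Fintype.sum_prod_type, ← h1]
          exact Finset.sum_congr rfl fun x _ => by simp only [hπdef, hq, Finset.sum_mul]
        have h7 : ∑ e : X × X, W e.2 e.1 * q i v e.2 = 1 := by
          rw [Fintype.sum_prod_type_right, ← h1]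
          exact Finset.sum_congr rfl fun x _ => by simp only [hπdef, hq, Finset.sum_mul]
        rw [Finset.sum_add_distrib, ← Finset.mul_sum, ← Finset.mul_sum, h6, h7] at h5
        linarith
      have hF0 : 0 ≤ ∑ e : X × X,
          c e.1 e.2 * (Real.sqrt (q i v e.1) - Real.sqrt (q i v e.2)) ^ 2 :=
        Finset.sum_nonneg fun e _ => mul_nonneg (hc0 _ _) (sq_nonneg _)
      rw [← Fintype.sum_prod_type (f := fun e : X × X =>
        c e.1 e.2 * (Real.sqrt (q i v e.1) - Real.sqrt (q i v e.2)) ^ 2)] at hdrop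
      have h8 := mul_le_mul_of_nonneg_right hW4 hF0
      nlinarith
    have hAsum : ∀ v K, δ * ∑ i ∈ range K, A i v ^ 2 ≤ 8 * (- Real.log (π v)) := by
      intro v K
      have h1 : δ * ∑ i ∈ range K, A i v ^ 2 ≤ 8 * (ent π (q 0 v) - ent π (q K v)) := by
        induction K with
        | zero => simp
        | succ K ih => rw [Finset.sum_range_succ, mul_add]; linarith [hAent K v]
      have h2 : ent π (q 0 v) = - Real.log (π v) := ent_hk_zero c π hπ δ v
      have h3 : 0 ≤ ent π (q K v) := ent_nonneg π hπ hπ1 _ (hqp v K).1 (hqp v K).2.1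
      linarith
    have hAlim : ∀ v, Tendsto (fun i => A i v) atTop (𝓝 0) := by
      intro v
      have hs : Summable fun i => A i v ^ 2 := by
        refine summable_of_sum_range_le (c := 8 * (- Real.log (π v)) / δ)
          (fun i => sq_nonneg _) fun K => ?_
        rw [le_div_iff₀ hδ, mul_comm]; exact hAsum v K
      have h1 := hs.tendsto_atTop_zero
      have h2 := (Real.continuous_sqrt.tendsto 0).comp h1
      rw [Real.sqrt_zero] at h2
      refine h2.congr fun i => ?_
      simp only [Function.comp]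
      exact Real.sqrt_sq (hA0 i v)
    -- rewrite the target
    have htarget : ∑ e : X × X, W e.1 e.2 * ∑ f, |(U f e.1 - U f e.2) / d e.1 e.2| =
        ∑ e : X × X, ∑ f, a e.1 e.2 * |U f e.1 - U f e.2| := by
      refine Finset.sum_congr rfl fun e _ => ?_
      rw [Finset.mul_sum]
      refine Finset.sum_congr rfl fun f _ => ?_
      by_cases h : e.1 = e.2
      · simp [h]
      · rw [abs_div, abs_of_pos (hd _ _ h)]; simp only [hadef]; ring
    rw [htarget]
    set g : X × X → X → ℝ := fun f z => b f z / π z with hg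
    have hterm : ∀ i j, ∑ e : X × X, ∑ f, a e.1 e.2 *
        |(stp c π δ)^[i + j] (g f) e.1 - (stp c π δ)^[i + j] (g f) e.2| ≤
        ∑ v, π v * (A i v * A j v) / 2 := by
      intro i j
      have h1 : ∀ (f : X × X) x, (stp c π δ)^[i + j] (g f) x =
          ∑ v, (π v * (a f.1 f.2 / 2 * (q j v f.1 - q j v f.2))) * q i v x := by
        intro f x
        rw [Function.iterate_add_apply, iter_eq_sum_hk c π hπ]
        refine Finset.sum_congr rfl fun v _ => ?_
        rw [iter_div_eq c hc π hπ, hbv]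
      have h2 : ∀ e f : X × X, a e.1 e.2 *
          |(stp c π δ)^[i + j] (g f) e.1 - (stp c π δ)^[i + j] (g f) e.2| ≤
          ∑ v, π v * ((a e.1 e.2 * |q i v e.1 - q i v e.2|) *
            (a f.1 f.2 * |q j v f.1 - q j v f.2|)) / 2 := by
        intro e f
        rw [h1, h1, ← Finset.sum_sub_distrib]
        refine (mul_le_mul_of_nonneg_left (Finset.abs_sum_le_sum_abs _ _) (ha0 _ _)).trans ?_
        rw [Finset.mul_sum]
        refine Finset.sum_le_sum fun v _ => le_of_eq ?_
        rw [← mul_sub, abs_mul, abs_mul, abs_mul, abs_of_pos (hπ v),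
          abs_of_nonneg (div_nonneg (ha0 _ _) (by norm_num : (0 : ℝ) ≤ 2))]
        ring
      refine (Finset.sum_le_sum fun e _ => Finset.sum_le_sum fun f _ => h2 e f).trans
        (le_of_eq ?_)
      simp only [hA, Finset.sum_mul_sum]
      simp only [Finset.mul_sum, Finset.sum_div]
      rw [Finset.sum_comm (s := (Finset.univ : Finset X))]
      refine Finset.sum_congr rfl fun e _ => ?_
      rw [Finset.sum_comm]
    have hres : ∀ N, ∑ e : X × X, ∑ f, a e.1 e.2 *
        |(stp c π δ)^[N] (U f) e.1 - (stp c π δ)^[N] (U f) e.2| ≤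
        ∑ v, (∑ f, π v * |U f v|) * A N v := by
      intro N
      have h2 : ∀ e f : X × X, a e.1 e.2 *
          |(stp c π δ)^[N] (U f) e.1 - (stp c π δ)^[N] (U f) e.2| ≤
          ∑ v, (π v * |U f v|) * (a e.1 e.2 * |q N v e.1 - q N v e.2|) := by
        intro e f
        rw [iter_eq_sum_hk c π hπ, iter_eq_sum_hk c π hπ δ N (U f) e.2, ← Finset.sum_sub_distrib]
        refine (mul_le_mul_of_nonneg_left (Finset.abs_sum_le_sum_abs _ _) (ha0 _ _)).trans ?_
        rw [Finset.mul_sum]
        refine Finset.sum_le_sum fun v _ => le_of_eq ?_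
        rw [← mul_sub, abs_mul, abs_mul, abs_of_pos (hπ v)]
        ring
      refine (Finset.sum_le_sum fun e _ => Finset.sum_le_sum fun f _ => h2 e f).trans
        (le_of_eq ?_)
      simp only [hA, Finset.sum_mul_sum]
      rw [Finset.sum_comm (s := (Finset.univ : Finset X))]
      rw [Finset.sum_comm]
      refine Finset.sum_congr rfl fun e _ => ?_
      rw [Finset.sum_comm]
    have hmain : ∀ K, ∑ e : X × X, ∑ f, a e.1 e.2 * |U f e.1 - U f e.2| ≤
        ∑ v, (∑ f, π v * |U f v|) * A (K + K) v + 8 * Real.log (Fintype.card X) := by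
      intro K
      have h1 : ∑ e : X × X, ∑ f, a e.1 e.2 * |U f e.1 - U f e.2| ≤
          ∑ e : X × X, ∑ f, (a e.1 e.2 *
            |(stp c π δ)^[K + K] (U f) e.1 - (stp c π δ)^[K + K] (U f) e.2| +
            δ * ∑ k ∈ range (K + K), a e.1 e.2 *
              |(stp c π δ)^[k] (g f) e.1 - (stp c π δ)^[k] (g f) e.2|) := by
        refine Finset.sum_le_sum fun e _ => Finset.sum_le_sum fun f _ => ?_
        have t1 := telescope c π δ (U f) (b f) (hU f) (K + K) e.1
        have t2 := telescope c π δ (U f) (b f) (hU f) (K + K) e.2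
        have t3 : U f e.1 - U f e.2 =
            ((stp c π δ)^[K + K] (U f) e.1 - (stp c π δ)^[K + K] (U f) e.2) +
            δ * ∑ k ∈ range (K + K),
              ((stp c π δ)^[k] (g f) e.1 - (stp c π δ)^[k] (g f) e.2) := by
          rw [Finset.sum_sub_distrib]; simp only [hg]; linarith
        rw [t3, ← Finset.mul_sum, mul_left_comm δ, ← mul_add]
        refine mul_le_mul_of_nonneg_left ((abs_add_le _ _).trans ?_) (ha0 _ _)
        rw [abs_mul, abs_of_pos hδ]
        exact add_le_add le_rfl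
          (mul_le_mul_of_nonneg_left (Finset.abs_sum_le_sum_abs _ _) hδ.le)
      refine h1.trans ?_
      simp only [Finset.sum_add_distrib]
      refine add_le_add (hres _) ?_
      have h2 : ∑ e : X × X, ∑ f, δ * ∑ k ∈ range (K + K), a e.1 e.2 *
              |(stp c π δ)^[k] (g f) e.1 - (stp c π δ)^[k] (g f) e.2| =
          δ * ∑ k ∈ range (K + K), ∑ e : X × X, ∑ f, a e.1 e.2 *
              |(stp c π δ)^[k] (g f) e.1 - (stp c π δ)^[k] (g f) e.2| := by
        simp only [← Finset.mul_sum]
        congr 1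
        rw [Finset.sum_comm (s := range (K + K))]
        refine Finset.sum_congr rfl fun e _ => ?_
        simp only [Finset.mul_sum]
        rw [Finset.sum_comm]
      rw [h2, sum_range_two_mul]
      have h3 : ∑ i ∈ range K, ((∑ e : X × X, ∑ f, a e.1 e.2 *
              |(stp c π δ)^[i + i] (g f) e.1 - (stp c π δ)^[i + i] (g f) e.2|) +
            ∑ e : X × X, ∑ f, a e.1 e.2 *
              |(stp c π δ)^[i + (i + 1)] (g f) e.1 - (stp c π δ)^[i + (i + 1)] (g f) e.2|) ≤
          ∑ v, π v * ∑ i ∈ range (K + 1), A i v ^ 2 := by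
        refine (Finset.sum_le_sum fun i _ => add_le_add (hterm i i) (hterm i (i + 1))).trans ?_
        simp only [← Finset.sum_add_distrib]
        rw [Finset.sum_comm]
        refine Finset.sum_le_sum fun v _ => ?_
        have h4 : ∑ i ∈ range K, (π v * (A i v * A i v) / 2 + π v * (A i v * A (i + 1) v) / 2) ≤
            ∑ i ∈ range K, π v * (3 / 4 * A i v ^ 2 + 1 / 4 * A (i + 1) v ^ 2) := by
          refine Finset.sum_le_sum fun i _ => ?_
          have := mul_nonneg (hπ v).le (sq_nonneg (A i v - A (i + 1) v))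
          nlinarith
        refine h4.trans ?_
        rw [← Finset.mul_sum]
        refine mul_le_mul_of_nonneg_left ?_ (hπ v).le
        rw [Finset.sum_add_distrib, ← Finset.mul_sum, ← Finset.mul_sum]
        have h5 := Finset.sum_range_succ (fun i => A i v ^ 2) K
        have h6 := Finset.sum_range_succ' (fun i => A i v ^ 2) K
        nlinarith [sq_nonneg (A K v), sq_nonneg (A 0 v)]
      refine (mul_le_mul_of_nonneg_left h3 hδ.le).trans ?_
      have h7 : δ * ∑ v, π v * ∑ i ∈ range (K + 1), A i v ^ 2 ≤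
          ∑ v, π v * (8 * (- Real.log (π v))) := by
        rw [Finset.mul_sum]
        refine Finset.sum_le_sum fun v _ => ?_
        rw [mul_left_comm]
        exact mul_le_mul_of_nonneg_left (hAsum v _) (hπ v).le
      have h8 := entropy_le_log_card π hπ hπ1
      have h9 : ∑ v, π v * (8 * (- Real.log (π v))) = 8 * ∑ v, π v * (- Real.log (π v)) := by
        rw [Finset.mul_sum]; exact Finset.sum_congr rfl fun v _ => by ring
      linarith
    have hlim : Tendsto (fun K => ∑ v, (∑ f, π v * |U f v|) * A (K + K) v +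
        8 * Real.log (Fintype.card X)) atTop
        (𝓝 (∑ v, (∑ f, π v * |U f v|) * 0 + 8 * Real.log (Fintype.card X))) := by
      refine Tendsto.add_const _ (tendsto_finsetSum _ fun v _ => Tendsto.const_mul _ ?_)
      refine (hAlim v).comp ?_
      exact tendsto_atTop_mono (fun K => Nat.le_add_right K K) tendsto_id
    simp only [mul_zero, Finset.sum_const_zero, zero_add] at hlim
    exact ge_of_tendsto' hlim hmain

end Crest.Agent.R232
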