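import Mathlib
import Crest.Agent.R232.Loc

set_option autoImplicit false

namespace Crest.Agent.R232

open Finset

lemma minimax_fin {I : Type} [Fintype I] [DecidableEq I] [Nonempty I] (S : Set (I → ℝ))
    (hS : Convex ℝ S)
    (h : ∀ y : I → ℝ, (∀ i, 0 ≤ y i) → ∑ i, y i = 1 → ∃ s ∈ S, ∑ i, y i * s i ≤ 1) :
    ∃ s ∈ S, ∀ i, s i < 2 := by
  by_contra hcon
  push Not at hcon
  set O : Set (I → ℝ) := {v | ∀ i, v i < 2} with hO
  have hOc : Convex ℝ O := by
    intro u hu v hv a b ha hb hab i
    have h1 := hu i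
    have h2 := hv i
    simp only [Pi.add_apply, Pi.smul_apply, smul_eq_mul]
    rcases ha.eq_or_lt with rfl | ha'
    · have : b = 1 := by linarith
      rw [this]; linarith
    · nlinarith [mul_lt_mul_of_pos_left h1 ha', mul_le_mul_of_nonneg_left h2.le hb]
  have hOo : IsOpen O := by
    have : O = ⋂ i, {v : I → ℝ | v i < 2} := by ext v; simp [hO]
    rw [this]
    exact isOpen_iInter_of_finite fun i => isOpen_lt (continuous_apply i) continuous_const
  have hdisj : Disjoint O S := by
    rw [Set.disjoint_left]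
    intro v hv hvS
    obtain ⟨i, hi⟩ := hcon v hvS
    exact absurd (hv i) (not_lt.2 hi)
  obtain ⟨f, u, hfO, hfS⟩ := geometric_hahn_banach_open hOc hOo hS hdisj
  set y : I → ℝ := fun i => f (Pi.single i 1) with hy
  have hf : ∀ v : I → ℝ, f v = ∑ i, y i * v i := by
    intro v
    conv_lhs => rw [← Finset.univ_sum_single v]
    rw [map_sum]
    refine Finset.sum_congr rfl fun i _ => ?_
    have : (Pi.single i (v i) : I → ℝ) = v i • (Pi.single i 1 : I → ℝ) := by
      rw [← Pi.single_smul]; simp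
    rw [this, map_smul, smul_eq_mul, mul_comm]
  have hu0 : 0 < u := by
    have := hfO 0 (fun i => by norm_num)
    simpa using this
  have hy0 : ∀ i, 0 ≤ y i := by
    intro i
    by_contra hneg
    push Not at hneg
    have h1 := hfO ((u / y i) • (Pi.single i 1 : I → ℝ)) (fun j => by
      simp only [Pi.smul_apply, smul_eq_mul]
      have : u / y i < 0 := div_neg_of_pos_of_neg hu0 hneg
      by_cases hj : j = i
      · subst hj; simp; linarith
      · simp [hj])
    rw [map_smul, smul_eq_mul] at h1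
    change u / y i * y i < u at h1
    rw [div_mul_cancel₀ _ hneg.ne] at h1
    exact lt_irrefl _ h1
  set m := ∑ i, y i with hm
  have hm0 : 0 ≤ m := Finset.sum_nonneg fun i _ => hy0 i
  have hm1 : 3 / 2 * m < u := by
    have := hfO (fun _ => 3 / 2) (fun i => by norm_num)
    rw [hf, ← Finset.sum_mul] at this
    linarith
  rcases hm0.eq_or_lt with hm0 | hm0
  · obtain ⟨s, hs, -⟩ := h (fun _ => 1 / Fintype.card I) (fun i => by positivity) (by
      have : (0 : ℝ) < Fintype.card I := by exact_mod_cast Fintype.card_pos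
      simp only [Finset.sum_const, Finset.card_univ, nsmul_eq_mul]
      field_simp)
    have h1 := hfS s hs
    have h2 : ∀ i, y i = 0 := fun i =>
      (Finset.sum_eq_zero_iff_of_nonneg (fun i _ => hy0 i)).1 hm0.symm i (Finset.mem_univ i)
    rw [hf] at h1
    simp only [h2, zero_mul, Finset.sum_const_zero] at h1
    linarith
  · obtain ⟨s, hs, hs1⟩ := h (fun i => y i / m) (fun i => div_nonneg (hy0 i) hm0.le) (by
      rw [← Finset.sum_div]; exact div_self hm0.ne')
    have h1 := hfS s hs
    rw [hf] at h1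
    have h2 : ∑ i, y i / m * s i = (∑ i, y i * s i) / m := by
      rw [Finset.sum_div]; exact Finset.sum_congr rfl fun i _ => by ring
    rw [h2, div_le_one hm0] at hs1
    linarith

/-- A projection onto gradients which is `O(log n)` bounded in `ℓ^∞` and, on a prescribed square
summable family, `O(1)` bounded in `ℓ^2` at every pair. -/
theorem exists_good_projection (X : Type) [Fintype X] [DecidableEq X] (hX : 2 ≤ Fintype.card X)
    (d : X → X → ℝ) (hd : ∀ x y, x ≠ y → 0 < d x y) (hds : ∀ x y, d x y = d y x)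
    (ι : Type) [Fintype ι] (β : ι → X × X → ℝ) (hβ : ∀ f, ∑ i, β i f ^ 2 ≤ 1) :
    ∃ A : X → X × X → ℝ,
      (∀ (u : X → ℝ) (x y : X),
        ∑ f : X × X, (A x f - A y f) * ((u f.1 - u f.2) / d f.1 f.2) = u x - u y) ∧
      (∀ e : X × X, ∑ f, |(A e.1 f - A e.2 f) / d e.1 e.2| ≤ 96 * Real.log (Fintype.card X)) ∧
      ∀ e : X × X, ∑ i, (∑ f, (A e.1 f - A e.2 f) / d e.1 e.2 * β i f) ^ 2 ≤ 12 := by
  have hn : (2 : ℝ) ≤ Fintype.card X := by exact_mod_cast hX
  have hlog : 0 < Real.log (Fintype.card X) := Real.log_pos (by linarith)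
  have : Nonempty X := Fintype.card_pos_iff.1 (by omega)
  set Lc : ℝ := 48 * Real.log (Fintype.card X) with hLc
  have hLc0 : 0 < Lc := by positivity
  set S : Set ((X × X) ⊕ (X × X) → ℝ) := {s | ∃ A : X → X × X → ℝ,
      (∀ (u : X → ℝ) (x y : X),
        ∑ f : X × X, (A x f - A y f) * ((u f.1 - u f.2) / d f.1 f.2) = u x - u y) ∧
      (∀ e : X × X, ∑ f, |(A e.1 f - A e.2 f) / d e.1 e.2| ≤ s (Sum.inl e) * Lc) ∧
      ∀ e : X × X, ∑ i, (∑ f, (A e.1 f - A e.2 f) / d e.1 e.2 * β i f) ^ 2 ≤ s (Sum.inr e) * 6}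
    with hSdef
  have hS : Convex ℝ S := by
    rintro s ⟨A, hA1, hA2, hA3⟩ t ⟨B, hB1, hB2, hB3⟩ a b ha hb hab
    refine ⟨fun x f => a * A x f + b * B x f, fun u x y => ?_, fun e => ?_, fun e => ?_⟩
    · have : ∑ f : X × X, (a * A x f + b * B x f - (a * A y f + b * B y f)) *
          ((u f.1 - u f.2) / d f.1 f.2) =
          a * ∑ f : X × X, (A x f - A y f) * ((u f.1 - u f.2) / d f.1 f.2) +
          b * ∑ f : X × X, (B x f - B y f) * ((u f.1 - u f.2) / d f.1 f.2) := by
        rw [Finset.mul_sum, Finset.mul_sum, ← Finset.sum_add_distrib]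
        exact Finset.sum_congr rfl fun f _ => by ring
      rw [this, hA1, hB1, ← add_mul, hab, one_mul]
    · have : ∑ f, |(a * A e.1 f + b * B e.1 f - (a * A e.2 f + b * B e.2 f)) / d e.1 e.2| ≤
          a * ∑ f, |(A e.1 f - A e.2 f) / d e.1 e.2| +
          b * ∑ f, |(B e.1 f - B e.2 f) / d e.1 e.2| := by
        rw [Finset.mul_sum, Finset.mul_sum, ← Finset.sum_add_distrib]
        refine Finset.sum_le_sum fun f _ => ?_
        rw [show (a * A e.1 f + b * B e.1 f - (a * A e.2 f + b * B e.2 f)) / d e.1 e.2 =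
          a * ((A e.1 f - A e.2 f) / d e.1 e.2) + b * ((B e.1 f - B e.2 f) / d e.1 e.2) by ring]
        refine (abs_add_le _ _).trans (le_of_eq ?_)
        rw [abs_mul, abs_mul, abs_of_nonneg ha, abs_of_nonneg hb]
      simp only [Pi.add_apply, Pi.smul_apply, smul_eq_mul]
      nlinarith [mul_le_mul_of_nonneg_left (hA2 e) ha, mul_le_mul_of_nonneg_left (hB2 e) hb]
    · have : ∑ i, (∑ f, (a * A e.1 f + b * B e.1 f - (a * A e.2 f + b * B e.2 f)) / d e.1 e.2
          * β i f) ^ 2 ≤
          a * ∑ i, (∑ f, (A e.1 f - A e.2 f) / d e.1 e.2 * β i f) ^ 2 +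
          b * ∑ i, (∑ f, (B e.1 f - B e.2 f) / d e.1 e.2 * β i f) ^ 2 := by
        rw [Finset.mul_sum, Finset.mul_sum, ← Finset.sum_add_distrib]
        refine Finset.sum_le_sum fun i _ => ?_
        have h1 : ∑ f, (a * A e.1 f + b * B e.1 f - (a * A e.2 f + b * B e.2 f)) / d e.1 e.2
            * β i f = a * (∑ f, (A e.1 f - A e.2 f) / d e.1 e.2 * β i f) +
              b * (∑ f, (B e.1 f - B e.2 f) / d e.1 e.2 * β i f) := by
          rw [Finset.mul_sum, Finset.mul_sum, ← Finset.sum_add_distrib]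
          exact Finset.sum_congr rfl fun f _ => by ring
        rw [h1]
        set s1 := ∑ f, (A e.1 f - A e.2 f) / d e.1 e.2 * β i f
        set s2 := ∑ f, (B e.1 f - B e.2 f) / d e.1 e.2 * β i f
        have hb' : b = 1 - a := by linarith
        subst hb'
        nlinarith [mul_nonneg (mul_nonneg ha hb) (sq_nonneg (s1 - s2))]
      simp only [Pi.add_apply, Pi.smul_apply, smul_eq_mul]
      nlinarith [mul_le_mul_of_nonneg_left (hA3 e) ha, mul_le_mul_of_nonneg_left (hB3 e) hb]
  obtain ⟨s, ⟨A, hA1, hA2, hA3⟩, hs⟩ := minimax_fin S hS (by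
    intro y hy0 hy1
    set n : ℝ := (Fintype.card X : ℝ) with hndef
    set W0 : X → X → ℝ := fun x z => if x = z then 0 else
      y (Sum.inl (x, z)) + y (Sum.inl (z, x)) + y (Sum.inr (x, z)) + y (Sum.inr (z, x)) + 1 / n ^ 2
      with hW0
    have hW0pos : ∀ x z, x ≠ z → 0 < W0 x z := fun x z h => by
      simp only [hW0, if_neg h]
      have := hy0 (Sum.inl (x, z)); have := hy0 (Sum.inl (z, x))
      have := hy0 (Sum.inr (x, z)); have := hy0 (Sum.inr (z, x))
      positivity
    have hW0nn : ∀ x z, 0 ≤ W0 x z := fun x z => by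
      by_cases h : x = z
      · simp [hW0, h]
      · exact (hW0pos x z h).le
    set m : ℝ := ∑ e : X × X, W0 e.1 e.2 with hm
    have hm0 : 0 < m := by
      obtain ⟨x, z, hxz⟩ := Fintype.exists_pair_of_one_lt_card (α := X) (by omega)
      exact Finset.sum_pos' (fun e _ => hW0nn _ _) ⟨(x, z), Finset.mem_univ _, hW0pos x z hxz⟩
    have hm3 : m ≤ 3 := by
      have h1 : m ≤ ∑ e : X × X, (y (Sum.inl e) + y (Sum.inl e.swap) + y (Sum.inr e) +
          y (Sum.inr e.swap) + 1 / n ^ 2) := by
        refine Finset.sum_le_sum fun e _ => ?_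
        simp only [hW0]
        split_ifs
        · have := hy0 (Sum.inl e); have := hy0 (Sum.inl e.swap)
          have := hy0 (Sum.inr e); have := hy0 (Sum.inr e.swap)
          positivity
        · exact le_rfl
      rw [Fintype.sum_sum_type] at hy1
      simp only [Finset.sum_add_distrib] at h1
      have h2 : ∑ e : X × X, y (Sum.inl e.swap) = ∑ e : X × X, y (Sum.inl e) :=
        (Equiv.prodComm X X).sum_comp (fun e => y (Sum.inl e))
      have h3 : ∑ e : X × X, y (Sum.inr e.swap) = ∑ e : X × X, y (Sum.inr e) :=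
        (Equiv.prodComm X X).sum_comp (fun e => y (Sum.inr e))
      have h4 : ∑ _e : X × X, 1 / n ^ 2 = 1 := by
        simp only [Finset.sum_const, Finset.card_univ, Fintype.card_prod, nsmul_eq_mul]
        push_cast
        rw [← hndef]
        have : n ≠ 0 := by linarith
        field_simp
      rw [h2, h3, h4] at h1
      linarith
    obtain ⟨A, hA1, hA2, hA3⟩ := exists_electrical X d (fun x z => W0 x z / m) hd hds
      (fun x z h => div_pos (hW0pos x z h) hm0)
      (fun x z => by
        simp only [hW0, eq_comm (a := z)]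
        split_ifs
        · rfl
        · ring)
      (fun x => by simp [hW0])
      (by rw [← Finset.sum_div]; exact div_self hm0.ne')
    set T : X × X → ℝ := fun e => ∑ f, |(A e.1 f - A e.2 f) / d e.1 e.2| with hT
    set Q : X × X → ℝ := fun e => ∑ i, (∑ f, (A e.1 f - A e.2 f) / d e.1 e.2 * β i f) ^ 2 with hQ
    have hT0 : ∀ e, 0 ≤ T e := fun e => Finset.sum_nonneg fun f _ => abs_nonneg _
    have hQ0 : ∀ e, 0 ≤ Q e := fun e => Finset.sum_nonneg fun f _ => sq_nonneg _
    refine ⟨Sum.elim (fun e => T e / Lc) (fun e => Q e / 6), ⟨A, hA1, fun e => ?_, fun e => ?_⟩, ?_⟩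
    · simp only [Sum.elim_inl]; rw [div_mul_cancel₀ _ hLc0.ne']
    · simp only [Sum.elim_inr]; rw [div_mul_cancel₀ _ (by norm_num)]
    · rw [Fintype.sum_sum_type]
      simp only [Sum.elim_inl, Sum.elim_inr]
      have hdom : ∀ (e : X × X) (r : ℝ), (r = y (Sum.inl e) ∨ r = y (Sum.inr e)) → e.1 ≠ e.2 →
          r ≤ 3 * (W0 e.1 e.2 / m) := by
        intro e r hr hne
        have h1 : r ≤ W0 e.1 e.2 := by
          simp only [hW0, if_neg hne]
          have := hy0 (Sum.inl e); have := hy0 (Sum.inl (e.2, e.1))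
          have := hy0 (Sum.inr e); have := hy0 (Sum.inr (e.2, e.1))
          have : 0 ≤ 1 / n ^ 2 := by positivity
          rcases hr with rfl | rfl <;> simp only [Prod.mk.eta] <;> linarith
        have h2 : W0 e.1 e.2 ≤ 3 * (W0 e.1 e.2 / m) := by
          rw [← mul_div_assoc, le_div_iff₀ hm0]
          nlinarith [hW0nn e.1 e.2]
        linarith
      have h1 : ∑ e, y (Sum.inl e) * (T e / Lc) ≤ ∑ e : X × X, 3 / Lc * (W0 e.1 e.2 / m * T e) := by
        refine Finset.sum_le_sum fun e _ => ?_
        by_cases hne : e.1 = e.2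
        · have : T e = 0 := by simp [hT, hne]
          simp [this]
        · have := mul_le_mul_of_nonneg_right (hdom e _ (Or.inl rfl) hne)
            (div_nonneg (hT0 e) hLc0.le)
          calc _ ≤ _ := this
            _ = _ := by ring
      have h2 : ∑ e, y (Sum.inr e) * (Q e / 6) ≤ ∑ e : X × X, 1 / 2 * (W0 e.1 e.2 / m * Q e) := by
        refine Finset.sum_le_sum fun e _ => ?_
        by_cases hne : e.1 = e.2
        · have : Q e = 0 := by simp [hQ, hne]
          simp [this]
        · have := mul_le_mul_of_nonneg_right (hdom e _ (Or.inr rfl) hne)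
            (div_nonneg (hQ0 e) (by norm_num : (0 : ℝ) ≤ 6))
          calc _ ≤ _ := this
            _ = _ := by ring
      rw [← Finset.mul_sum] at h1 h2
      have h3 : ∑ e : X × X, W0 e.1 e.2 / m * Q e ≤ 1 := by
        have h4 : ∑ e : X × X, W0 e.1 e.2 / m * Q e = ∑ i, ∑ e : X × X, W0 e.1 e.2 / m *
            (∑ f, (A e.1 f - A e.2 f) / d e.1 e.2 * β i f) ^ 2 := by
          simp only [hQ, Finset.mul_sum]
          rw [Finset.sum_comm]
        rw [h4]
        refine (Finset.sum_le_sum fun i _ => hA2 (β i)).trans ?_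
        rw [Finset.sum_comm]
        simp only [← Finset.mul_sum]
        calc ∑ e : X × X, W0 e.1 e.2 / m * ∑ i, β i e ^ 2 ≤ ∑ e : X × X, W0 e.1 e.2 / m * 1 :=
              Finset.sum_le_sum fun e _ =>
                mul_le_mul_of_nonneg_left (hβ e) (div_nonneg (hW0nn _ _) hm0.le)
          _ = 1 := by
              simp only [mul_one]; rw [← Finset.sum_div]; exact div_self hm0.ne'
      have h5 : 3 / Lc * ∑ e : X × X, W0 e.1 e.2 / m * T e ≤ 1 / 2 := by
        refine (mul_le_mul_of_nonneg_left hA3 (by positivity)).trans (le_of_eq ?_)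
        rw [← hndef, hLc]; field_simp; norm_num
      linarith)
  refine ⟨A, hA1, fun e => (hA2 e).trans ?_, fun e => (hA3 e).trans ?_⟩
  · have := hs (Sum.inl e); nlinarith
  · have := hs (Sum.inr e); linarith

end Crest.Agent.R232
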