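import Mathlib
import Crest.Agent.R232.Err
import Crest.Agent.R232.Proj

set_option autoImplicit false

namespace Crest.Agent.R232

open Finset

lemma mink {ι : Type} [Fintype ι] (U V : ι → ℝ) {p : ℝ} (hp : 1 ≤ p) (Z δ : ℝ) (hZ : 0 < Z)
    (hδ : 0 < δ) (hδ1 : δ < 1) (hV : ∑ i, |V i| ^ p = Z)
    (hUV : ∑ i, |U i - V i| ^ p ≤ δ ^ p * Z) :
    (1 - δ) ^ p * Z ≤ ∑ i, |U i| ^ p ∧ ∑ i, |U i| ^ p ≤ (1 + δ) ^ p * Z := by
  have hp0 : 0 < p := by linarith
  have hnn : ∀ W : ι → ℝ, 0 ≤ ∑ i, |W i| ^ p := fun W =>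
    Finset.sum_nonneg fun i _ => Real.rpow_nonneg (abs_nonneg _) _
  have hinv : ∀ x : ℝ, 0 ≤ x → (x ^ (1 / p)) ^ p = x := fun x hx => by
    rw [← Real.rpow_mul hx, one_div_mul_cancel hp0.ne', Real.rpow_one]
  have hinv' : ∀ x : ℝ, 0 ≤ x → (x ^ p) ^ (1 / p) = x := fun x hx => by
    rw [← Real.rpow_mul hx, mul_one_div_cancel hp0.ne', Real.rpow_one]
  set z := Z ^ (1 / p) with hz
  have hz0 : 0 < z := Real.rpow_pos_of_pos hZ _
  have h1 : (∑ i, |U i - V i| ^ p) ^ (1 / p) ≤ δ * z := by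
    refine (Real.rpow_le_rpow (hnn _) hUV (by positivity)).trans (le_of_eq ?_)
    rw [Real.mul_rpow (by positivity) hZ.le, hinv' δ hδ.le]
  have h2 := Real.Lp_add_le univ (fun i => U i - V i) V hp
  simp only [sub_add_cancel] at h2
  rw [hV] at h2
  have h3 := Real.Lp_add_le univ (fun i => V i - U i) U hp
  simp only [sub_add_cancel] at h3
  rw [hV] at h3
  simp only [abs_sub_comm (V _) (U _)] at h3
  constructor
  · have h4 : (1 - δ) * z ≤ (∑ i, |U i| ^ p) ^ (1 / p) := by linarith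
    have h5 := Real.rpow_le_rpow (by have : 0 < 1 - δ := by linarith
                                     positivity) h4 hp0.le
    rwa [hinv _ (hnn _), Real.mul_rpow (by linarith) hz0.le, hinv _ hZ.le] at h5
  · have h4 : (∑ i, |U i| ^ p) ^ (1 / p) ≤ (1 + δ) * z := by linarith
    have h5 := Real.rpow_le_rpow (Real.rpow_nonneg (hnn _) _) h4 hp0.le
    rwa [hinv _ (hnn _), Real.mul_rpow (by linarith) hz0.le, hinv _ hZ.le] at h5

lemma exists_superset {α β : Type} [Fintype α] [Fintype β] (S : α → β → Finset ℤ) :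
    ∃ J : Finset ℤ, ∀ a b, S a b ⊆ J :=
  ⟨(univ : Finset (α × β)).biUnion fun q => S q.1 q.2, fun a b t ht =>
    Finset.mem_biUnion.2 ⟨(a, b), Finset.mem_univ _, ht⟩⟩

lemma log_Lam_le (γ C1 K0 : ℝ) (hγ : 0 < γ) (hC1 : 0 < C1) (hK0 : 1 ≤ K0) :
    ∃ C0 : ℝ, ∀ ℓ : ℝ, Real.log 2 ≤ ℓ →
      Real.log (K0 * (96 * ℓ) * (⌈C1 * (96 * ℓ + 1) ^ γ⌉₊ : ℕ) *
        4 ^ ⌈C1 * (96 * ℓ + 1) ^ γ⌉₊) ≤ C0 * ℓ ^ γ := by
  have hl2 : (1 / 2 : ℝ) < Real.log 2 := by have := Real.log_two_gt_d9; linarith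
  have hl2' : Real.log 2 < 1 := by have := Real.log_two_lt_d9; linarith
  refine ⟨(Real.log K0 + 3) / Real.log 2 ^ γ + 96 ^ γ / γ + 3 * C1 * 192 ^ γ, fun ℓ hℓ => ?_⟩
  have hℓ0 : 0 < ℓ := by linarith
  set M := ⌈C1 * (96 * ℓ + 1) ^ γ⌉₊ with hM
  have hM1 : 0 < M := Nat.ceil_pos.2 (by positivity)
  have hM0 : (0 : ℝ) < M := by exact_mod_cast hM1
  have hMle : (M : ℝ) ≤ C1 * 192 ^ γ * ℓ ^ γ + 1 := by
    have h1 : (M : ℝ) < C1 * (96 * ℓ + 1) ^ γ + 1 := Nat.ceil_lt_add_one (by positivity)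
    have h2 : (96 * ℓ + 1) ^ γ ≤ (192 * ℓ) ^ γ :=
      Real.rpow_le_rpow (by positivity) (by linarith) hγ.le
    rw [Real.mul_rpow (by norm_num) hℓ0.le] at h2
    nlinarith
  rw [Real.log_mul (by positivity) (by positivity), Real.log_mul (by positivity) (by positivity),
    Real.log_mul (by positivity) (by positivity), Real.log_pow]
  have h1 : Real.log (96 * ℓ) ≤ 96 ^ γ / γ * ℓ ^ γ := by
    have := Real.log_le_rpow_div (x := 96 * ℓ) (by positivity) hγ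
    rw [Real.mul_rpow (by norm_num) hℓ0.le] at this
    refine this.trans (le_of_eq ?_)
    ring
  have h2 : Real.log M ≤ M := (Real.log_le_sub_one_of_pos hM0).trans (by linarith)
  have h3 : Real.log 4 ≤ 2 := by
    rw [show (4 : ℝ) = 2 ^ 2 by norm_num, Real.log_pow]; push_cast; linarith
  have h4 : (M : ℝ) * Real.log 4 ≤ M * 2 := mul_le_mul_of_nonneg_left h3 hM0.le
  have h5 : Real.log K0 + 3 ≤ (Real.log K0 + 3) / Real.log 2 ^ γ * ℓ ^ γ := by
    have h6 : Real.log 2 ^ γ ≤ ℓ ^ γ := Real.rpow_le_rpow (by linarith) hℓ hγ.le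
    have h7 : 0 < Real.log 2 ^ γ := Real.rpow_pos_of_pos (by linarith) _
    have h8 : 0 ≤ Real.log K0 := Real.log_nonneg hK0
    rw [div_mul_eq_mul_div, le_div_iff₀ h7]
    exact mul_le_mul_of_nonneg_left h6 (by linarith)
  nlinarith

set_option maxHeartbeats 400000 in
theorem levels {p : ℝ} (hp1 : 1 < p) (hp2 : p ≠ 2) (δ : ℝ) (hδ : 0 < δ) (hδ1 : δ < 1) :
    ∃ C0 : ℝ, ∀ (X Ω : Type) [Fintype X] [DecidableEq X] [Fintype Ω] (u : Ω → X → ℝ)
      (d : X → X → ℝ), 2 ≤ Fintype.card X → (∀ x y, x ≠ y → 0 < d x y) →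
      (∀ x y, d x y = d y x) → (∀ x y, x ≠ y → ∑ ω, |(u ω x - u ω y) / d x y| ^ p = 1) →
      ∃ (A : Type) (_ : Fintype A) (m : A → ℝ) (G : A → X → ℝ) (Λ : ℝ),
        2 ≤ Λ ∧ (Fintype.card X : ℝ) ^ 2 ≤ Real.exp Λ ∧
        Real.log Λ ≤ C0 * Real.log (Fintype.card X) ^ gam p ∧ (∀ a, 0 ≤ m a) ∧
        ∀ x y, x ≠ y → (∀ a, |(G a x - G a y) / d x y| ≤ Λ) ∧
          ∑ a, m a * |(G a x - G a y) / d x y| ≤ Λ ∧
          1 ≤ ∑ a, m a * |(G a x - G a y) / d x y| ^ p ∧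
          ∑ a, m a * |(G a x - G a y) / d x y| ^ p ≤ ((1 + δ) / (1 - δ)) ^ p := by
  classical
  have hp0 : 0 < p := by linarith
  have hg : 0 < gc |p - 2| := gc_pos (abs_pos.2 (sub_ne_zero.2 hp2))
  have hg1 : 0 < gc (p - 1) := gc_pos (by linarith)
  have hδ' : 0 < 1 - δ := by linarith
  obtain ⟨C1, hC1, herr⟩ := err_bound hp1 hp2 δ hδ
  obtain ⟨K0, hK0⟩ : ∃ K0 : ℝ, K0 = 1 + gc (p - 1) / ((1 - δ) ^ p * 2 ^ (1 - p)) := ⟨_, rfl⟩
  have hK1 : 1 ≤ K0 := by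
    have : 0 < gc (p - 1) / ((1 - δ) ^ p * 2 ^ (1 - p)) := by positivity
    linarith
  obtain ⟨C0, hC0⟩ := log_Lam_le (gam p) C1 K0 (gam_pos hp2) hC1 hK1
  refine ⟨C0, fun X Ω _ _ _ u d hX hd hds hu => ?_⟩
  have hn : (2 : ℝ) ≤ Fintype.card X := by exact_mod_cast hX
  have hl2 : (1 / 2 : ℝ) < Real.log 2 := by have := Real.log_two_gt_d9; linarith
  have hℓ : Real.log 2 ≤ Real.log (Fintype.card X) := Real.log_le_log (by norm_num) hn
  specialize hC0 _ hℓ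
  obtain ⟨L, hL⟩ : ∃ L, L = 96 * Real.log (Fintype.card X) := ⟨_, rfl⟩
  rw [← hL] at hC0
  have hL2 : 2 ≤ L := by linarith
  obtain ⟨M, hM⟩ : ∃ M, M = ⌈C1 * (L + 1) ^ gam p⌉₊ := ⟨_, rfl⟩
  rw [← hM] at hC0
  have hM1 : 1 ≤ M := hM ▸ Nat.ceil_pos.2 (by positivity)
  have hM1' : (1 : ℝ) ≤ M := by exact_mod_cast hM1
  have hCM : C1 * (L + 1) ^ gam p ≤ M := hM ▸ Nat.le_ceil _
  have h4M : (1 : ℝ) ≤ 4 ^ M := one_le_pow₀ (by norm_num)
  obtain ⟨h, hh⟩ : ∃ h : Ω → X × X → ℝ, ∀ ω e, h ω e = (u ω e.1 - u ω e.2) / d e.1 e.2 :=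
    ⟨_, fun _ _ => rfl⟩
  have hu' : ∀ x y, x ≠ y → ∑ ω, |h ω (x, y)| ^ p = 1 := fun x y hxy => by
    simp only [hh]; exact hu x y hxy
  have hh1 : ∀ e, ∑ ω, |h ω e| ^ p ≤ 1 := by
    rintro ⟨x, y⟩
    by_cases hxy : x = y
    · subst hxy
      simp [hh, hp0.ne']
    · exact (hu' x y hxy).le
  obtain ⟨J, hJsub⟩ : ∃ J : Finset ℤ, ∀ ω e, Ico (lev (h ω e) - 2 * M) (lev (h ω e)) ⊆ J :=
    exists_superset fun ω e => Ico (lev (h ω e) - 2 * M) (lev (h ω e))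
  obtain ⟨T, hJT⟩ : ∃ T : Finset ℤ, ∀ j ∈ J, ∀ s : ℕ, s < 2 * M → j + s ∈ T :=
    ⟨J.biUnion fun j => (range (2 * M)).image fun s : ℕ => j + s, fun j hj s hs =>
      Finset.mem_biUnion.2 ⟨j, hj, Finset.mem_image.2 ⟨s, Finset.mem_range.2 hs, rfl⟩⟩⟩
  have hsq : ∀ t : ℤ, Real.sqrt (wt (p - 2) t / gc |p - 2|) ^ 2 = wt (p - 2) t / gc |p - 2| :=
    fun t => Real.sq_sqrt (div_pos (wt_pos _ _) hg).le
  obtain ⟨A, hA1, hA2, hA3⟩ := exists_good_projection X hX d hd hds (Ω × T)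
    (fun i f => Real.sqrt (wt (p - 2) i.2 / gc |p - 2|) * part p i.2 (h i.1 f)) (by
      intro f
      rw [Fintype.sum_prod_type]
      calc _ = ∑ ω, (∑ t ∈ T, wt (p - 2) t * part p t (h ω f) ^ 2) / gc |p - 2| := by
            refine Finset.sum_congr rfl fun ω _ => ?_
            rw [Finset.sum_div, ← Finset.sum_coe_sort T]
            refine Finset.sum_congr rfl fun t _ => ?_
            rw [mul_pow, hsq]; ring
        _ ≤ ∑ ω, |h ω f| ^ p := Finset.sum_le_sum fun ω _ => by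
            rw [div_le_iff₀ hg, mul_comm]; exact sum_wt_part_sq hp2 T _
        _ ≤ 1 := hh1 f)
  obtain ⟨K, hK⟩ : ∃ K : X × X → X × X → ℝ, ∀ e f, K e f = (A e.1 f - A e.2 f) / d e.1 e.2 :=
    ⟨_, fun _ _ => rfl⟩
  have hA2' : ∀ e, ∑ f, |K e f| ≤ L := fun e => by simp only [hK, hL]; exact hA2 e
  have hKrep : ∀ e ω, ∑ f, K e f * h ω f = h ω e := by
    intro e ω
    have := hA1 (u ω) e.1 e.2
    simp only [hK, hh]
    rw [← this, Finset.sum_div]
    refine Finset.sum_congr rfl fun f _ => ?_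
    ring
  have hKL2 : ∀ e, ∑ ω, ∑ t ∈ T, wt (p - 2) t * (∑ f, K e f * part p t (h ω f)) ^ 2 ≤
      12 * gc |p - 2| := by
    intro e
    have := hA3 e
    rw [Fintype.sum_prod_type] at this
    rw [← div_le_iff₀ hg]
    refine le_trans (le_of_eq ?_) this
    rw [Finset.sum_div]
    refine Finset.sum_congr rfl fun ω _ => ?_
    rw [Finset.sum_div, ← Finset.sum_coe_sort T]
    refine Finset.sum_congr rfl fun t _ => ?_
    have : ∑ f, (A e.1 f - A e.2 f) / d e.1 e.2 *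
        (Real.sqrt (wt (p - 2) t / gc |p - 2|) * part p t (h ω f)) =
        Real.sqrt (wt (p - 2) t / gc |p - 2|) * ∑ f, K e f * part p t (h ω f) := by
      rw [Finset.mul_sum]
      refine Finset.sum_congr rfl fun f _ => ?_
      simp only [hK]; ring
    rw [this, mul_pow, hsq]; ring
  have hZ := Zc_pos hp1.le M hM1
  have hZge : (2 : ℝ) ^ (1 - p) * M ≤ Zc p M := by
    refine le_trans ?_ (Zc_ge hp1.le M hM1)
    refine mul_le_mul_of_nonneg_left ?_ (by positivity)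
    calc (M : ℝ) = (M : ℝ) ^ (1 : ℝ) := (Real.rpow_one _).symm
      _ ≤ _ := Real.rpow_le_rpow_of_exponent_le hM1' (by linarith)
  obtain ⟨N, hN⟩ : ∃ N, N = (1 - δ) ^ p * Zc p M := ⟨_, rfl⟩
  have hN0 : 0 < N := by rw [hN]; positivity
  have hLam : L ≤ K0 * L * M * 4 ^ M := by
    calc L = 1 * L * 1 * 1 := by ring
      _ ≤ K0 * L * M * 4 ^ M := by gcongr
  refine ⟨Ω × J, inferInstance, fun a => wt p a.2 / N,
    fun a x => (∑ f, A x f * al M a.2 (h a.1 f)) / (2 : ℝ) ^ (a.2 : ℤ), K0 * L * M * 4 ^ M,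
    hL2.trans hLam, ?_, hC0, fun a => (div_pos (wt_pos _ _) hN0).le, fun x y hxy => ?_⟩
  · refine le_trans ?_ (Real.exp_le_exp.2 hLam)
    rw [← Real.exp_log (x := (Fintype.card X : ℝ) ^ 2) (by positivity), Real.log_pow]
    refine Real.exp_le_exp.2 ?_
    push_cast
    linarith
  obtain ⟨U, hU⟩ : ∃ U : Ω × J → ℝ, ∀ a, U a = ∑ f, K (x, y) f * al M a.2 (h a.1 f) :=
    ⟨_, fun _ => rfl⟩
  have h2j : ∀ j : ℤ, (0 : ℝ) < 2 ^ j := fun j => zpow_pos (by norm_num) j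
  have hY : ∀ a : Ω × J, ((∑ f, A x f * al M a.2 (h a.1 f)) / (2 : ℝ) ^ (a.2 : ℤ) -
      (∑ f, A y f * al M a.2 (h a.1 f)) / (2 : ℝ) ^ (a.2 : ℤ)) / d x y =
      U a / (2 : ℝ) ^ (a.2 : ℤ) := by
    intro a
    simp only [hU, hK]
    rw [← sub_div, ← Finset.sum_sub_distrib, div_right_comm, Finset.sum_div]
    congr 1
    refine Finset.sum_congr rfl fun f _ => ?_
    ring
  simp only [hY]
  have hmY : ∀ a : Ω × J, wt p a.2 / N * |U a / (2 : ℝ) ^ (a.2 : ℤ)| ^ p = |U a| ^ p / N := by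
    intro a
    rw [abs_div, abs_of_pos (h2j _), Real.div_rpow (abs_nonneg _) (h2j _).le, wt]
    have := Real.rpow_pos_of_pos (h2j a.2) p
    field_simp
  simp only [hmY]
  obtain ⟨hlo, hhi⟩ := mink U (fun a : Ω × J => al M a.2 (h a.1 (x, y))) hp1.le (Zc p M) δ hZ hδ
    hδ1 (by
      rw [Fintype.sum_prod_type]
      calc _ = ∑ ω, Zc p M * |h ω (x, y)| ^ p := by
            refine Finset.sum_congr rfl fun ω _ => ?_
            rw [← sum_al_pow hp0 M J _ (hJsub ω (x, y)), ← Finset.sum_coe_sort J]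
        _ = Zc p M := by rw [← Finset.mul_sum, hu' x y hxy, mul_one]) (by
      rw [Fintype.sum_prod_type]
      refine le_trans (le_of_eq ?_) (herr (X × X) Ω (K (x, y)) h (x, y) L M J T (by linarith) hM1
        hCM (hA2' (x, y)) (hKrep (x, y)) hh1 hJT (hKL2 (x, y)))
      refine Finset.sum_congr rfl fun ω _ => ?_
      simp only [hU]
      rw [← Finset.sum_coe_sort J])
  refine ⟨fun a => ?_, ?_, ?_, ?_⟩
  · rw [abs_div, abs_of_pos (h2j _), div_le_iff₀ (h2j _)]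
    calc |U a| ≤ ∑ f, |K (x, y) f| * (M * (4 : ℝ) ^ M * (2 : ℝ) ^ (a.2 : ℤ)) := by
          rw [hU]
          refine (Finset.abs_sum_le_sum_abs _ _).trans (Finset.sum_le_sum fun f _ => ?_)
          rw [abs_mul]
          exact mul_le_mul_of_nonneg_left (abs_al_le _ _ _) (abs_nonneg _)
      _ ≤ L * (M * (4 : ℝ) ^ M * (2 : ℝ) ^ (a.2 : ℤ)) := by
          rw [← Finset.sum_mul]
          exact mul_le_mul_of_nonneg_right (hA2' (x, y)) (by have := h2j a.2; positivity)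
      _ = 1 * L * M * 4 ^ M * (2 : ℝ) ^ (a.2 : ℤ) := by ring
      _ ≤ _ := by have := h2j a.2; gcongr
  · have h1 := sum_wt_kernel_le hp1 (K (x, y)) h L (hA2' (x, y)) hh1 J
    calc _ ≤ ∑ a : Ω × J, M / N * (wt (p - 1) a.2 * ∑ f, |K (x, y) f| * |hi a.2 (h a.1 f)|) := by
          refine Finset.sum_le_sum fun a _ => ?_
          have h2 : |U a| ≤ M * ∑ f, |K (x, y) f| * |hi a.2 (h a.1 f)| := by
            rw [Finset.mul_sum, hU]
            refine (Finset.abs_sum_le_sum_abs _ _).trans (Finset.sum_le_sum fun f _ => ?_)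
            rw [abs_mul, mul_left_comm]
            exact mul_le_mul_of_nonneg_left (abs_al_le_hi _ _ _) (abs_nonneg _)
          have h3 : wt p a.2 = wt (p - 1) a.2 * (2 : ℝ) ^ (a.2 : ℤ) := by
            unfold wt
            rw [← Real.rpow_add_one (h2j _).ne']; norm_num
          rw [abs_div, abs_of_pos (h2j _), h3]
          have h4 := wt_pos (p - 1) a.2
          have h5 := h2j a.2
          calc _ = wt (p - 1) a.2 / N * |U a| := by field_simp
            _ ≤ wt (p - 1) a.2 / N * (M * ∑ f, |K (x, y) f| * |hi a.2 (h a.1 f)|) :=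
                mul_le_mul_of_nonneg_left h2 (by positivity)
            _ = _ := by ring
      _ = M / N * ∑ ω, ∑ t ∈ J, wt (p - 1) t * ∑ f, |K (x, y) f| * |hi t (h ω f)| := by
          rw [← Finset.mul_sum, Fintype.sum_prod_type]
          congr 1
          refine Finset.sum_congr rfl fun ω _ => ?_
          rw [← Finset.sum_coe_sort J]
      _ ≤ M / N * (L * gc (p - 1)) := mul_le_mul_of_nonneg_left h1 (by positivity)
      _ ≤ K0 * L * 1 * 1 := by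
          have h2 : (M : ℝ) / N ≤ 1 / ((1 - δ) ^ p * 2 ^ (1 - p)) := by
            rw [div_le_div_iff₀ hN0 (by positivity), hN]
            have := mul_le_mul_of_nonneg_left hZge (Real.rpow_pos_of_pos hδ' p).le
            linarith
          have h3 := mul_le_mul_of_nonneg_right h2 (by positivity : 0 ≤ L * gc (p - 1))
          refine h3.trans ?_
          rw [hK0]
          have : 1 / ((1 - δ) ^ p * 2 ^ (1 - p)) * (L * gc (p - 1)) =
              gc (p - 1) / ((1 - δ) ^ p * 2 ^ (1 - p)) * L := by ring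
          rw [this]
          nlinarith
      _ ≤ _ := by gcongr
  · rw [← Finset.sum_div, le_div_iff₀ hN0, one_mul, hN]
    exact hlo
  · rw [← Finset.sum_div, div_le_iff₀ hN0, hN, Real.div_rpow (by linarith) hδ'.le]
    refine hhi.trans (le_of_eq ?_)
    have := Real.rpow_pos_of_pos hδ' p
    field_simp

end Crest.Agent.R232
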