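import Mathlib

/-! Auxiliary finite-probability lemmas for `merge_sample` (helper24). -/

set_option autoImplicit false

open Real Finset

namespace Crest.Agent.R232.Merge

/-- expectation over `N` independent samples with weights `w` -/
noncomputable def Ex {B : Type} [Fintype B] (w : B → ℝ) (N : ℕ) (f : (Fin N → B) → ℝ) : ℝ :=
  ∑ ξ : Fin N → B, (∏ s, w (ξ s)) * f ξ

section
variable {B : Type} [Fintype B] {w : B → ℝ} {N : ℕ}

theorem Ex_prod (g : Fin N → B → ℝ) :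
    Ex w N (fun ξ => ∏ s, g s (ξ s)) = ∏ s, ∑ b, w b * g s b := by
  classical
  unfold Ex
  rw [Finset.prod_univ_sum, Fintype.piFinset_univ]
  simp only [Finset.prod_mul_distrib]

theorem sum_weights (h1 : ∑ b, w b = 1) : ∑ ξ : Fin N → B, ∏ s, w (ξ s) = 1 := by
  have := Ex_prod (w := w) (N := N) fun _ _ => 1
  simpa [Ex, h1] using this

theorem Ex_mono (h0 : ∀ b, 0 ≤ w b) {f g : (Fin N → B) → ℝ} (h : ∀ ξ, f ξ ≤ g ξ) :
    Ex w N f ≤ Ex w N g :=
  Finset.sum_le_sum fun ξ _ => mul_le_mul_of_nonneg_left (h ξ) (Finset.prod_nonneg fun _ _ => h0 _)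

theorem Ex_add (f g : (Fin N → B) → ℝ) : Ex w N (fun ξ => f ξ + g ξ) = Ex w N f + Ex w N g := by
  simp only [Ex, mul_add, Finset.sum_add_distrib]

theorem Ex_sub (f g : (Fin N → B) → ℝ) : Ex w N (fun ξ => f ξ - g ξ) = Ex w N f - Ex w N g := by
  simp only [Ex, mul_sub, Finset.sum_sub_distrib]

theorem Ex_const_mul (c : ℝ) (f : (Fin N → B) → ℝ) : Ex w N (fun ξ => c * f ξ) = c * Ex w N f := by
  simp only [Ex, Finset.mul_sum]
  exact Finset.sum_congr rfl fun _ _ => by ring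

theorem Ex_sum {ι : Type*} (T : Finset ι) (f : ι → (Fin N → B) → ℝ) :
    Ex w N (fun ξ => ∑ i ∈ T, f i ξ) = ∑ i ∈ T, Ex w N (f i) := by
  simp only [Ex, Finset.mul_sum]
  exact Finset.sum_comm

theorem Ex_one_other (r : Fin N) (g h : B → ℝ) :
    Ex w N (fun ξ => g (ξ r) * ∏ s ∈ univ.erase r, h (ξ s)) =
      (∑ b, w b * g b) * (∑ b, w b * h b) ^ (N - 1) := by
  classical
  have e1 := Ex_prod (w := w) (N := N) fun s b => if s = r then g b else h b
  have e2 : ∀ ξ : Fin N → B, (∏ s, if s = r then g (ξ s) else h (ξ s)) =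
      g (ξ r) * ∏ s ∈ univ.erase r, h (ξ s) := by
    intro ξ
    rw [← Finset.mul_prod_erase _ _ (mem_univ r), if_pos rfl]
    congr 1
    exact Finset.prod_congr rfl fun s hs => if_neg (Finset.ne_of_mem_erase hs)
  simp only [e2] at e1
  rw [e1, ← Finset.mul_prod_erase _ _ (mem_univ r)]
  simp only [if_true]
  congr 1
  rw [Finset.prod_congr rfl (g := fun _ => ∑ b, w b * h b) fun s hs => by
    simp only [if_neg (Finset.ne_of_mem_erase hs)]]
  simp

theorem Ex_coord (h1 : ∑ b, w b = 1) (r : Fin N) (g : B → ℝ) :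
    Ex w N (fun ξ => g (ξ r)) = ∑ b, w b * g b := by
  have := Ex_one_other (w := w) r g fun _ => 1
  simpa [h1] using this

end

theorem exp_le_one_add_two_mul {x : ℝ} (h0 : 0 ≤ x) (h1 : x ≤ 1) : exp x ≤ 1 + 2 * x := by
  have := Real.abs_exp_sub_one_le (x := x) (by rwa [abs_of_nonneg h0])
  rw [abs_of_nonneg h0] at this
  linarith [le_abs_self (exp x - 1)]

theorem exp_le_one_add_four_mul {x : ℝ} (h0 : 0 ≤ x) (h1 : x ≤ 2) : exp x ≤ 1 + 4 * x := by
  have h2 := exp_le_one_add_two_mul (x := x / 2) (by linarith) (by linarith)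
  have h3 : exp x = exp (x / 2) * exp (x / 2) := by rw [← exp_add]; congr 1; ring
  have h4 := exp_pos (x / 2)
  nlinarith

theorem one_add_pow_le_exp {x : ℝ} (hx : 0 ≤ x) (n : ℕ) : (1 + x) ^ n ≤ exp (n * x) := by
  rw [Real.exp_nat_mul]
  exact pow_le_pow_left₀ (by linarith) (by linarith [add_one_le_exp x]) n

theorem exists_rpow_le_exp {p : ℝ} (hp : 1 ≤ p) :
    ∃ C : ℝ, 1 ≤ C ∧ ∀ R : ℝ, 0 ≤ R → R ^ p ≤ C * (exp R - 1) := by
  have hf : (1 : ℝ) ≤ (⌈p⌉₊.factorial : ℕ) := by exact_mod_cast Nat.factorial_pos _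
  refine ⟨2 * (⌈p⌉₊.factorial : ℕ), by linarith, fun R hR => ?_⟩
  have h1 := add_one_le_exp R
  rcases le_total R 1 with h | h
  · have : R ^ p ≤ R := by
      have := Real.rpow_le_rpow_of_exponent_ge' hR h zero_le_one hp
      rwa [Real.rpow_one] at this
    nlinarith
  · have h2 : R ^ p ≤ R ^ ⌈p⌉₊ := by
      rw [← Real.rpow_natCast]
      exact Real.rpow_le_rpow_of_exponent_le h (Nat.le_ceil p)
    have h3 := Real.pow_div_factorial_le_exp R hR ⌈p⌉₊
    rw [div_le_iff₀ (by linarith)] at h3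
    nlinarith

theorem rpow_sub_le {p a b : ℝ} (hp : 1 ≤ p) (hb : 0 ≤ b) (hab : b ≤ a) :
    a ^ p - b ^ p ≤ p * a ^ (p - 1) * (a - b) := by
  rcases (hb.trans hab).eq_or_lt with h | ha
  · have : b = 0 := by linarith
    subst this; rw [← h]; simp
  · have h1 := one_add_mul_self_le_rpow_one_add (s := b / a - 1)
      (by have := div_nonneg hb ha.le; linarith) hp
    rw [add_sub_cancel, Real.div_rpow hb ha.le, le_div_iff₀ (Real.rpow_pos_of_pos ha p)] at h1
    have h2 : a ^ p = a ^ (p - 1) * a := by rw [Real.rpow_sub_one ha.ne']; field_simp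
    have h3 : (1 + p * (b / a - 1)) * a ^ p = a ^ p - p * a ^ (p - 1) * (a - b) := by
      rw [h2]; field_simp; ring
    linarith

theorem abs_rpow_sub_le {p a b T : ℝ} (hp : 1 ≤ p) (ha : 0 ≤ a) (hb : 0 ≤ b) (haT : a ≤ T)
    (hbT : b ≤ T) : |a ^ p - b ^ p| ≤ p * T ^ (p - 1) * |a - b| := by
  wlog hab : b ≤ a generalizing a b
  · rw [abs_sub_comm, abs_sub_comm a]; exact this hb ha hbT haT (le_of_not_ge hab)
  rw [abs_of_nonneg (sub_nonneg.2 (Real.rpow_le_rpow hb hab (by linarith))),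
    abs_of_nonneg (sub_nonneg.2 hab)]
  refine (rpow_sub_le hp hb hab).trans ?_
  have := Real.rpow_le_rpow ha haT (by linarith : 0 ≤ p - 1)
  have h0 : 0 ≤ p := by linarith
  have h1 := sub_nonneg.2 hab
  gcongr

theorem pointwise {N : ℕ} {p : ℝ} (hp : 1 < p) (y : Fin N → ℝ) :
    abs (|∑ s, y s| ^ p - ∑ s, |y s| ^ p) ≤
      (p + 1) * ∑ r, |y r| * (2 * ∑ s ∈ univ.erase r, |y s|) ^ (p - 1) := by
  classical
  rcases Nat.eq_zero_or_pos N with rfl | hN
  · simp [Real.zero_rpow (by linarith : p ≠ 0)]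
  have : Nonempty (Fin N) := ⟨⟨0, hN⟩⟩
  obtain ⟨m, -, hm⟩ := Finset.exists_max_image univ (fun s => |y s|) univ_nonempty
  set T := ∑ s, |y s| with hT
  set F : Fin N → ℝ := fun r => |y r| * (2 * ∑ s ∈ univ.erase r, |y s|) ^ (p - 1) with hF
  have hF0 : ∀ r, 0 ≤ F r := fun r => by positivity
  have hR : ∀ r, T = |y r| + ∑ s ∈ univ.erase r, |y s| := fun r =>
    (Finset.add_sum_erase _ (fun s => |y s|) (mem_univ r)).symm
  have hT2 : ∀ r ∈ univ.erase m, T ≤ 2 * ∑ s ∈ univ.erase r, |y s| := by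
    intro r hr
    have h1 : |y m| ≤ ∑ s ∈ univ.erase r, |y s| :=
      Finset.single_le_sum (f := fun s => |y s|) (fun _ _ => abs_nonneg _)
        (Finset.mem_erase.2 ⟨(Finset.ne_of_mem_erase hr).symm, mem_univ _⟩)
    have := hm r (mem_univ _)
    have := hR r
    linarith
  have hT0 : 0 ≤ T := Finset.sum_nonneg fun _ _ => abs_nonneg _
  have hyT : ∀ r, |y r| ≤ T := fun r =>
    Finset.single_le_sum (f := fun s => |y s|) (fun _ _ => abs_nonneg _) (mem_univ r)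
  have h1 : ∑ r ∈ univ.erase m, |y r| * T ^ (p - 1) ≤ ∑ r, F r := by
    refine le_trans (Finset.sum_le_sum fun r hr => ?_)
      (Finset.sum_le_sum_of_subset_of_nonneg (Finset.erase_subset m univ) fun r _ _ => hF0 r)
    exact mul_le_mul_of_nonneg_left (Real.rpow_le_rpow hT0 (hT2 r hr) (by linarith)) (abs_nonneg _)
  have h2 : abs (|∑ s, y s| ^ p - |y m| ^ p) ≤ p * ∑ r ∈ univ.erase m, |y r| * T ^ (p - 1) := by
    refine (abs_rpow_sub_le hp.le (abs_nonneg _) (abs_nonneg _) (Finset.abs_sum_le_sum_abs _ _)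
      (hyT m)).trans ?_
    rw [← Finset.sum_mul, mul_assoc, mul_comm (T ^ (p - 1))]
    have h3 : abs (|∑ s, y s| - |y m|) ≤ ∑ r ∈ univ.erase m, |y r| := by
      refine (abs_abs_sub_abs_le_abs_sub _ _).trans ?_
      rw [← Finset.add_sum_erase _ y (mem_univ m), add_sub_cancel_left]
      exact Finset.abs_sum_le_sum_abs _ _
    have h0 : 0 ≤ p := by linarith
    gcongr
  have h3 : ∑ r ∈ univ.erase m, |y r| ^ p ≤ ∑ r ∈ univ.erase m, |y r| * T ^ (p - 1) := by
    refine Finset.sum_le_sum fun r _ => ?_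
    have : |y r| ^ p = |y r| * |y r| ^ (p - 1) := by
      rw [← Real.rpow_one_add' (abs_nonneg _) (by linarith)]; congr 1; ring
    rw [this]
    exact mul_le_mul_of_nonneg_left (Real.rpow_le_rpow (abs_nonneg _) (hyT r) (by linarith))
      (abs_nonneg _)
  have h4 : 0 ≤ ∑ r ∈ univ.erase m, |y r| ^ p := Finset.sum_nonneg fun _ _ => by positivity
  rw [← Finset.add_sum_erase _ (fun s => |y s| ^ p) (mem_univ m)]
  have h5 := abs_sub (|∑ s, y s| ^ p - |y m| ^ p) (∑ r ∈ univ.erase m, |y r| ^ p)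
  rw [abs_of_nonneg h4] at h5
  have h6 := mul_le_mul_of_nonneg_left h1 (by linarith : 0 ≤ p + 1)
  rw [← sub_sub]
  linarith

/-- interference estimate -/
theorem interference {B : Type} [Fintype B] {w : B → ℝ} {N : ℕ} (h0 : ∀ b, 0 ≤ w b)
    (h1 : ∑ b, w b = 1) {p C G η : ℝ} (hp : 1 < p) (hC1 : 1 ≤ C)
    (hC : ∀ R : ℝ, 0 ≤ R → R ^ p ≤ C * (exp R - 1))
    (hG : 0 < G) (hη : η ≤ 1 / 2) (y : B → ℝ) (hy : ∀ b, |y b| ≤ 1)
    (hN : N * ∑ b, w b * |y b| ≤ η) :
    abs (Ex w N (fun ξ => |∑ s, y (ξ s)| ^ p) - N * ∑ b, w b * |y b| ^ p) ≤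
      (p + 1) * (η * (G⁻¹ ^ (p - 1) + G * 2 ^ p * C * (4 * η))) := by
  classical
  set α := ∑ b, w b * |y b| with hα
  have hα0 : 0 ≤ α := Finset.sum_nonneg fun b _ => mul_nonneg (h0 b) (abs_nonneg _)
  have hη0 : 0 ≤ η := le_trans (by positivity) hN
  have e1 : (N : ℝ) * ∑ b, w b * |y b| ^ p = Ex w N fun ξ => ∑ s, |y (ξ s)| ^ p := by
    rw [Ex_sum]
    simp only [Ex_coord h1 _ fun b => |y b| ^ p]
    simp
  set δ := G⁻¹ ^ (p - 1) with hδ
  have hδ0 : 0 ≤ δ := by positivity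
  set C2 := G * 2 ^ p * C with hC2
  have hC20 : 0 ≤ C2 := by positivity
  have hu : ∀ R : ℝ, 0 ≤ R → (2 * R) ^ (p - 1) ≤ δ + C2 * (exp R - 1) := by
    intro R hR
    have he : 0 ≤ exp R - 1 := by linarith [add_one_le_exp R]
    rcases le_total (2 * R) G⁻¹ with h | h
    · have := Real.rpow_le_rpow (by positivity) h (by linarith : 0 ≤ p - 1)
      have := mul_nonneg hC20 he
      linarith
    · have h2 : 0 < 2 * R := (inv_pos.2 hG).trans_le h
      have h3 : (2 * R) ^ (p - 1) ≤ G * (2 * R) ^ p := by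
        rw [Real.rpow_sub_one h2.ne', div_le_iff₀ h2]
        have h4 : 1 ≤ G * (2 * R) := by
          rw [inv_le_iff_one_le_mul₀' hG] at h; exact h
        have h5 := Real.rpow_pos_of_pos h2 p
        nlinarith
      have h2p : (2 * R) ^ p = 2 ^ p * R ^ p := Real.mul_rpow (by norm_num) hR
      rw [h2p] at h3
      have h6 : G * (2 ^ p * R ^ p) ≤ G * (2 ^ p * (C * (exp R - 1))) := by
        have := hC R hR
        gcongr
      have : G * (2 ^ p * (C * (exp R - 1))) = C2 * (exp R - 1) := by rw [hC2]; ring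
      linarith
  have hM : (∑ b, w b * exp |y b|) ^ (N - 1) ≤ 1 + 4 * η := by
    have h2 : ∑ b, w b * exp |y b| ≤ 1 + 2 * α := by
      rw [hα, Finset.mul_sum, ← h1, ← Finset.sum_add_distrib]
      refine Finset.sum_le_sum fun b _ => ?_
      have := mul_le_mul_of_nonneg_left (exp_le_one_add_two_mul (abs_nonneg _) (hy b)) (h0 b)
      linarith
    have h3 : 0 ≤ ∑ b, w b * exp |y b| :=
      Finset.sum_nonneg fun b _ => mul_nonneg (h0 b) (exp_pos _).le
    calc _ ≤ (1 + 2 * α) ^ (N - 1) := pow_le_pow_left₀ h3 h2 _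
      _ ≤ (1 + 2 * α) ^ N := pow_le_pow_right₀ (by linarith) (Nat.sub_le _ _)
      _ ≤ exp (N * (2 * α)) := one_add_pow_le_exp (by linarith) N
      _ ≤ exp (2 * η) := exp_le_exp.2 (by linarith)
      _ ≤ 1 + 2 * (2 * η) := exp_le_one_add_two_mul (by linarith) (by linarith)
      _ = _ := by ring
  have hr : ∀ r : Fin N, Ex w N (fun ξ => |y (ξ r)| * (2 * ∑ s ∈ univ.erase r, |y (ξ s)|) ^ (p - 1))
      ≤ α * (δ + C2 * (4 * η)) := by
    intro r
    have h2 : Ex w N (fun ξ => |y (ξ r)| * (2 * ∑ s ∈ univ.erase r, |y (ξ s)|) ^ (p - 1)) ≤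
        Ex w N (fun ξ => (δ - C2) * |y (ξ r)| +
          C2 * (|y (ξ r)| * ∏ s ∈ univ.erase r, exp |y (ξ s)|)) := by
      refine Ex_mono h0 fun ξ => ?_
      have := mul_le_mul_of_nonneg_left (hu (∑ s ∈ univ.erase r, |y (ξ s)|)
        (Finset.sum_nonneg fun _ _ => abs_nonneg _)) (abs_nonneg (y (ξ r)))
      rw [← exp_sum]
      linarith
    rw [Ex_add, Ex_const_mul, Ex_const_mul, Ex_coord h1 r fun b => |y b|,
      Ex_one_other r (fun b => |y b|) fun b => exp |y b|, ← hα] at h2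
    have := mul_le_mul_of_nonneg_left hM (mul_nonneg hC20 hα0)
    linarith
  have h2 : Ex w N (fun ξ => (p + 1) *
      ∑ r, |y (ξ r)| * (2 * ∑ s ∈ univ.erase r, |y (ξ s)|) ^ (p - 1)) ≤
      (p + 1) * (η * (δ + C2 * (4 * η))) := by
    rw [Ex_const_mul, Ex_sum]
    refine mul_le_mul_of_nonneg_left ((Finset.sum_le_sum fun r _ => hr r).trans ?_) (by linarith)
    simp only [Finset.sum_const, Finset.card_univ, Fintype.card_fin, nsmul_eq_mul]
    rw [← mul_assoc]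
    exact mul_le_mul_of_nonneg_right hN (by positivity)
  rw [e1, ← Ex_sub, abs_le]
  constructor
  · have := Ex_mono (N := N) h0 (f := fun ξ => -1 * ((p + 1) *
      ∑ r, |y (ξ r)| * (2 * ∑ s ∈ univ.erase r, |y (ξ s)|) ^ (p - 1)))
      (g := fun ξ => |∑ s, y (ξ s)| ^ p - ∑ s, |y (ξ s)| ^ p) fun ξ => by
        have := (abs_le.1 (pointwise hp fun s => y (ξ s))).1
        linarith
    rw [Ex_const_mul] at this
    linarith
  · exact (Ex_mono h0 fun ξ => (le_abs_self _).trans (pointwise hp fun s => y (ξ s))).trans h2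

/-- truncation estimate -/
theorem truncation {B E : Type} [Fintype B] [Fintype E] {w : B → ℝ} {N : ℕ} (h0 : ∀ b, 0 ≤ w b)
    (h1 : ∑ b, w b = 1) {p C η k : ℝ} (hp : 1 < p) (hC1 : 1 ≤ C)
    (hC : ∀ R : ℝ, 0 ≤ R → R ^ p ≤ C * (exp R - 1))
    (hη : η ≤ 1 / 2) (y : B → E → ℝ) (hy : ∀ b e, |y b e| ≤ 1)
    (hN : ∀ e, N * ∑ b, w b * |y b e| ≤ η) (e : E)
    [DecidablePred fun ξ : Fin N → B => ∀ e', ∑ s, |y (ξ s) e'| ≤ k] :
    Ex w N (fun ξ => if ∀ e', ∑ s, |y (ξ s) e'| ≤ k then 0 else |∑ s, y (ξ s) e| ^ p) ≤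
      Fintype.card E * (C * exp (4 - k)) := by
  have h2 : ∀ ξ : Fin N → B, (if ∀ e', ∑ s, |y (ξ s) e'| ≤ k then 0 else |∑ s, y (ξ s) e| ^ p) ≤
      ∑ e', C * exp (-k) * ∏ s, exp (|y (ξ s) e| + |y (ξ s) e'|) := by
    intro ξ
    split_ifs with h
    · positivity
    · push Not at h
      obtain ⟨e', he'⟩ := h
      refine le_trans ?_ (Finset.single_le_sum
        (f := fun e' => C * exp (-k) * ∏ s, exp (|y (ξ s) e| + |y (ξ s) e'|))
        (fun _ _ => by positivity) (mem_univ e'))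
      rw [← exp_sum, Finset.sum_add_distrib, exp_add]
      have h3 : |∑ s, y (ξ s) e| ^ p ≤ (∑ s, |y (ξ s) e|) ^ p :=
        Real.rpow_le_rpow (abs_nonneg _) (Finset.abs_sum_le_sum_abs _ _) (by linarith)
      have h4 := hC _ (Finset.sum_nonneg fun s (_ : s ∈ univ) => abs_nonneg (y (ξ s) e))
      have h5 : 1 ≤ exp (-k) * exp (∑ s, |y (ξ s) e'|) := by
        rw [← exp_add, one_le_exp_iff]; linarith
      have h6 := exp_pos (∑ s, |y (ξ s) e|)
      have h7 := mul_le_mul_of_nonneg_left h5 (by positivity : 0 ≤ C * exp (∑ s, |y (ξ s) e|))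
      nlinarith
  refine (Ex_mono h0 h2).trans ?_
  rw [Ex_sum]
  refine (Finset.sum_le_sum (g := fun _ => C * exp (4 - k)) fun e' _ => ?_).trans (by simp)
  rw [Ex_const_mul, Ex_prod fun _ b => exp (|y b e| + |y b e'|)]
  simp only [Finset.prod_const, Finset.card_univ, Fintype.card_fin]
  set α := ∑ b, w b * |y b e| with hα
  set α' := ∑ b, w b * |y b e'| with hα'
  have hα0 : 0 ≤ α := Finset.sum_nonneg fun b _ => mul_nonneg (h0 b) (abs_nonneg _)
  have hα0' : 0 ≤ α' := Finset.sum_nonneg fun b _ => mul_nonneg (h0 b) (abs_nonneg _)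
  have h3 : ∑ b, w b * exp (|y b e| + |y b e'|) ≤ 1 + 4 * (α + α') := by
    rw [hα, hα', ← Finset.sum_add_distrib, Finset.mul_sum, ← h1, ← Finset.sum_add_distrib]
    refine Finset.sum_le_sum fun b _ => ?_
    have := mul_le_mul_of_nonneg_left (exp_le_one_add_four_mul (x := |y b e| + |y b e'|)
      (by positivity) (by linarith [hy b e, hy b e'])) (h0 b)
    linarith
  have h4 : 0 ≤ ∑ b, w b * exp (|y b e| + |y b e'|) :=
    Finset.sum_nonneg fun b _ => mul_nonneg (h0 b) (exp_pos _).le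
  have h5 : (∑ b, w b * exp (|y b e| + |y b e'|)) ^ N ≤ exp 4 :=
    calc _ ≤ (1 + 4 * (α + α')) ^ N := pow_le_pow_left₀ h4 h3 _
      _ ≤ exp (N * (4 * (α + α'))) := one_add_pow_le_exp (by linarith) N
      _ ≤ exp 4 := exp_le_exp.2 (by linarith [hN e, hN e'])
  rw [sub_eq_neg_add, exp_add, mul_assoc]
  gcongr

theorem exp_moment {Ω : Type} [Fintype Ω] {W : Ω → ℝ} (h0 : ∀ b, 0 ≤ W b) (h1 : ∑ b, W b = 1)
    (Z : Ω → ℝ) {β : ℝ} (hβ : β ≤ 1) (hZ : ∀ ω, |Z ω| ≤ β) (hm : ∑ ω, W ω * Z ω = 0) :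
    ∑ ω, W ω * exp (Z ω) ≤ exp (β ^ 2) := by
  have h2 : ∑ ω, W ω * exp (Z ω) ≤ ∑ ω, (W ω + W ω * Z ω + β ^ 2 * W ω) := by
    refine Finset.sum_le_sum fun ω _ => ?_
    have h3 := Real.abs_exp_sub_one_sub_id_le ((hZ ω).trans hβ)
    have h4 : Z ω ^ 2 ≤ β ^ 2 := by
      rw [← sq_abs]; exact pow_le_pow_left₀ (abs_nonneg _) (hZ ω) 2
    have h5 : exp (Z ω) ≤ 1 + Z ω + β ^ 2 := by linarith [le_abs_self (exp (Z ω) - 1 - Z ω)]
    have := mul_le_mul_of_nonneg_left h5 (h0 ω)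
    linarith
  rw [Finset.sum_add_distrib, Finset.sum_add_distrib, ← Finset.mul_sum, h1, hm] at h2
  linarith [add_one_le_exp (β ^ 2)]

/-- Hoeffding-type sampling lemma -/
theorem sampling {Ω E : Type} [Fintype Ω] [Fintype E] {W : Ω → ℝ} (h0 : ∀ b, 0 ≤ W b)
    (h1 : ∑ b, W b = 1) (X : E → Ω → ℝ) {B t Λ : ℝ} (hB : 0 < B) (ht : 0 < t) (htB : t ≤ 2 * B)
    (hX0 : ∀ e ω, 0 ≤ X e ω) (hX : ∀ e ω, X e ω ≤ B) (hE : (Fintype.card E : ℝ) ≤ exp Λ) {D : ℕ}
    (hD : 4 * B ^ 2 * (Λ + 1) / t ^ 2 ≤ D) :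
    ∃ ω : Fin D → Ω, ∀ e, |∑ i, X e (ω i) - D * ∑ x, W x * X e x| ≤ t * D := by
  set μ : E → ℝ := fun e => ∑ x, W x * X e x with hμ
  have hμ0 : ∀ e, 0 ≤ μ e := fun e => Finset.sum_nonneg fun x _ => mul_nonneg (h0 x) (hX0 e x)
  have hμB : ∀ e, μ e ≤ B := fun e => by
    have : μ e ≤ ∑ x, W x * B :=
      Finset.sum_le_sum fun x _ => mul_le_mul_of_nonneg_left (hX e x) (h0 x)
    rwa [← Finset.sum_mul, h1, one_mul] at this
  set l := t / (2 * B ^ 2) with hl
  have hl0 : 0 < l := by positivity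
  have hlB : l * B ≤ 1 := by
    rw [hl, div_mul_eq_mul_div, div_le_one (by positivity)]; nlinarith
  have hσ : ∀ (σ : ℝ), |σ| = 1 → ∀ e, Ex W D (fun ω => exp (-(l * t * D)) *
      ∏ i, exp (σ * l * (X e (ω i) - μ e))) ≤ exp (-(Λ + 1)) := by
    intro σ hσ e
    rw [Ex_const_mul, Ex_prod fun _ x => exp (σ * l * (X e x - μ e))]
    simp only [Finset.prod_const, Finset.card_univ, Fintype.card_fin]
    have h2 := exp_moment h0 h1 (fun x => σ * l * (X e x - μ e)) hlB (fun x => by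
      rw [abs_mul, abs_mul, hσ, one_mul, abs_of_pos hl0]
      refine mul_le_mul_of_nonneg_left (abs_le.2 ⟨?_, ?_⟩) hl0.le
      · linarith [hX0 e x, hμB e]
      · linarith [hX e x, hμ0 e]) (by
      have : ∀ x, W x * (σ * l * (X e x - μ e)) = σ * l * (W x * X e x) - σ * l * μ e * W x :=
        fun x => by ring
      simp only [this, Finset.sum_sub_distrib, ← Finset.mul_sum, h1]
      simp [hμ])
    have h3 : 0 ≤ ∑ x, W x * exp (σ * l * (X e x - μ e)) :=
      Finset.sum_nonneg fun b _ => mul_nonneg (h0 b) (exp_pos _).le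
    have h4 := pow_le_pow_left₀ h3 h2 D
    rw [← Real.exp_nat_mul] at h4
    refine (mul_le_mul_of_nonneg_left h4 (exp_pos _).le).trans ?_
    rw [← exp_add, exp_le_exp]
    have e1 : -(l * t * D) + D * (l * B) ^ 2 = -(D * (t ^ 2 / (4 * B ^ 2))) := by
      rw [hl]; field_simp; ring
    rw [e1, neg_le_neg_iff, ← mul_div_assoc, le_div_iff₀ (by positivity)]
    rw [div_le_iff₀ (by positivity)] at hD
    linarith
  set F : (Fin D → Ω) → ℝ := fun ω => ∑ e, (exp (-(l * t * D)) *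
      ∏ i, exp (1 * l * (X e (ω i) - μ e)) + exp (-(l * t * D)) *
      ∏ i, exp (-1 * l * (X e (ω i) - μ e))) with hF
  have hEF : Ex W D F < 1 := by
    rw [hF, Ex_sum]
    have h2 : ∀ e, Ex W D (fun ω => exp (-(l * t * D)) * ∏ i, exp (1 * l * (X e (ω i) - μ e)) +
        exp (-(l * t * D)) * ∏ i, exp (-1 * l * (X e (ω i) - μ e))) ≤ 2 * exp (-(Λ + 1)) := by
      intro e
      rw [Ex_add]
      linarith [hσ 1 (by simp) e, hσ (-1) (by simp) e]
    refine (Finset.sum_le_sum fun e _ => h2 e).trans_lt ?_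
    simp only [Finset.sum_const, Finset.card_univ, nsmul_eq_mul]
    have h3 : exp Λ * exp (-(Λ + 1)) * exp 1 = 1 := by rw [← exp_add, ← exp_add]; simp
    have h4 : 2 < exp 1 := by linarith [Real.exp_one_gt_d9]
    have h5 := exp_pos (-(Λ + 1))
    have h6 := mul_pos (exp_pos Λ) h5
    nlinarith
  have hex : ∃ ω, F ω < 1 := by
    by_contra hc
    push Not at hc
    have := Ex_mono (N := D) h0 (f := fun _ => 1) hc
    simp only [Ex, mul_one, sum_weights h1] at this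
    exact absurd hEF (not_lt.2 this)
  obtain ⟨ω, hω⟩ := hex
  refine ⟨ω, fun e => ?_⟩
  have h2 := (Finset.single_le_sum (f := fun e => exp (-(l * t * D)) *
      ∏ i, exp (1 * l * (X e (ω i) - μ e)) + exp (-(l * t * D)) *
      ∏ i, exp (-1 * l * (X e (ω i) - μ e))) (fun _ _ => by positivity) (mem_univ e)).trans_lt hω
  simp only [← exp_sum, ← exp_add, ← Finset.mul_sum, Finset.sum_sub_distrib, Finset.sum_const,
    Finset.card_univ, Fintype.card_fin, nsmul_eq_mul] at h2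
  have h3 := exp_pos (-(l * t * D) + 1 * l * (∑ i, X e (ω i) - D * μ e))
  have h4 := exp_pos (-(l * t * D) + -1 * l * (∑ i, X e (ω i) - D * μ e))
  have h5 : -(l * t * D) + 1 * l * (∑ i, X e (ω i) - D * μ e) < 0 := by
    rw [← exp_lt_one_iff]; linarith
  have h6 : -(l * t * D) + -1 * l * (∑ i, X e (ω i) - D * μ e) < 0 := by
    rw [← exp_lt_one_iff]; linarith
  rw [abs_le]
  constructor
  · by_contra hc
    have := mul_pos hl0 (sub_pos.2 (not_le.1 hc))
    nlinarith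
  · by_contra hc
    have := mul_pos hl0 (sub_pos.2 (not_le.1 hc))
    nlinarith

/-- polynomially bounded functions on `[2, ∞)` -/
def Poly (f : ℝ → ℝ) : Prop := ∃ r : ℕ, ∀ x, 2 ≤ x → |f x| ≤ x ^ r

theorem Poly.const (c : ℝ) : Poly fun _ => c := by
  obtain ⟨r, hr⟩ := pow_unbounded_of_one_lt |c| (by norm_num : (1 : ℝ) < 2)
  exact ⟨r, fun x hx => hr.le.trans (pow_le_pow_left₀ (by norm_num) hx r)⟩

theorem Poly.id : Poly fun x => x := ⟨1, fun x hx => by rw [pow_one, abs_of_pos (by linarith)]⟩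

theorem Poly.mul {f g : ℝ → ℝ} (hf : Poly f) (hg : Poly g) : Poly fun x => f x * g x := by
  obtain ⟨r, hr⟩ := hf
  obtain ⟨s, hs⟩ := hg
  refine ⟨r + s, fun x hx => ?_⟩
  rw [abs_mul, pow_add]
  exact mul_le_mul (hr x hx) (hs x hx) (abs_nonneg _) (by positivity)

theorem Poly.add {f g : ℝ → ℝ} (hf : Poly f) (hg : Poly g) : Poly fun x => f x + g x := by
  obtain ⟨r, hr⟩ := hf
  obtain ⟨s, hs⟩ := hg
  refine ⟨r + s + 1, fun x hx => (abs_add_le _ _).trans ?_⟩
  have h1 : x ^ r ≤ x ^ (r + s) := pow_le_pow_right₀ (by linarith) (by omega)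
  have h2 : x ^ s ≤ x ^ (r + s) := pow_le_pow_right₀ (by linarith) (by omega)
  have h3 : 0 ≤ x ^ (r + s) := by positivity
  rw [pow_succ]
  nlinarith [hr x hx, hs x hx]

theorem Poly.rpow {f : ℝ → ℝ} (hf : Poly f) {q : ℝ} (hq : 0 ≤ q) : Poly fun x => f x ^ q := by
  obtain ⟨r, hr⟩ := hf
  refine ⟨r * ⌈q⌉₊, fun x hx => (Real.abs_rpow_le_abs_rpow _ _).trans ?_⟩
  refine (Real.rpow_le_rpow (abs_nonneg _) (hr x hx) hq).trans ?_
  rw [pow_mul, ← Real.rpow_natCast (x ^ r)]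
  exact Real.rpow_le_rpow_of_exponent_le (one_le_pow₀ (by linarith)) (Nat.le_ceil q)

end Crest.Agent.R232.Merge
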