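import Mathlib
import Crest.Agent.R232.MergeAux

set_option autoImplicit false

namespace Crest.Agent.R232

open Real Finset in
theorem Merge.core {p ε C G η k Λ : ℝ} (hp : 1 < p) (hε : 0 < ε) (hε1 : ε ≤ 1 / 10)
    (hC1 : 1 ≤ C) (hC : ∀ R : ℝ, 0 ≤ R → R ^ p ≤ C * (exp R - 1)) (hG : 0 < G)
    (hη0 : 0 < η) (hη : η ≤ 1 / 2) (hΛ : 2 ≤ Λ) (hk : 1 ≤ k)
    (hI : (p + 1) * (η * (G⁻¹ ^ (p - 1) + G * 2 ^ p * C * (4 * η))) ≤ ε * (η / Λ ^ p) / 2)
    (hT : exp Λ * (C * exp (4 - k)) ≤ ε * (η / Λ ^ p) / 2) {D : ℕ}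
    (hD : 4 * (k ^ p) ^ 2 * (Λ + 1) / (ε * (η / Λ ^ p) / 2) ^ 2 ≤ D)
    {E A : Type} [Fintype E] [Fintype A] (m : A → ℝ) (Y : A → E → ℝ)
    (hE : (Fintype.card E : ℝ) ≤ Real.exp Λ) (hm : ∀ a, 0 ≤ m a)
    (hY : ∀ a e, |Y a e| ≤ Λ) (hY1 : ∀ e, ∑ a, m a * |Y a e| ≤ Λ)
    (hY2 : ∀ e, 1 ≤ ∑ a, m a * |Y a e| ^ p) (hY3 : ∀ e, ∑ a, m a * |Y a e| ^ p ≤ 1 + ε) :
    ∃ (c : Fin D → A → ℝ) (s : ℝ), 0 < s ∧
        ∀ e, s ≤ ∑ i, |∑ a, c i a * Y a e| ^ p ∧
          ∑ i, |∑ a, c i a * Y a e| ^ p ≤ (1 + 10 * ε) * s := by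
  classical
  have hΛ0 : 0 < Λ := by linarith
  have hL1 : 1 ≤ Λ ^ p := Real.one_le_rpow (by linarith) (by linarith)
  have hL0 : 0 < Λ ^ p := by linarith
  set η' := η / Λ ^ p with hη'
  have hη'0 : 0 < η' := by positivity
  have hη'1 : η' ≤ 1 / 2 := (div_le_self hη0.le hL1).trans hη
  set t := ε * η' / 2 with ht
  have ht0 : 0 < t := by positivity
  have hB1 : 1 ≤ k ^ p := Real.one_le_rpow hk (by linarith)
  have hM0 : 0 ≤ ∑ a, m a := Finset.sum_nonneg fun a _ => hm a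
  obtain ⟨N, hN⟩ := exists_nat_ge (η * ∑ a, m a + 1)
  have hN0 : (0 : ℝ) < N := by nlinarith
  set w : Option A → ℝ := fun b => b.elim (1 - η * (∑ a, m a) / N) fun a => η * m a / N with hw
  set y : Option A → E → ℝ := fun b e => b.elim 0 fun a => Y a e / Λ with hy
  have h0 : ∀ b, 0 ≤ w b := by
    rintro (_ | a)
    · simp only [hw, Option.elim_none, sub_nonneg]
      rw [div_le_one hN0]; linarith
    · simp only [hw, Option.elim_some]
      have := hm a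
      positivity
  have h1 : ∑ b, w b = 1 := by
    rw [Fintype.sum_option]
    simp only [hw, Option.elim_none, Option.elim_some]
    rw [← Finset.sum_div, ← Finset.mul_sum]; ring
  have hy1 : ∀ b e, |y b e| ≤ 1 := by
    rintro (_ | a) e
    · simp [hy]
    · simp only [hy, Option.elim_some]
      rw [abs_div, abs_of_pos hΛ0, div_le_one hΛ0]; exact hY a e
  have hNα : ∀ e, N * ∑ b, w b * |y b e| ≤ η := by
    intro e
    rw [Fintype.sum_option]
    simp only [hw, hy, Option.elim_none, Option.elim_some, abs_zero, mul_zero, zero_add]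
    have : (N : ℝ) * ∑ a, η * m a / N * |Y a e / Λ| = η / Λ * ∑ a, m a * |Y a e| := by
      rw [Finset.mul_sum, Finset.mul_sum]
      refine Finset.sum_congr rfl fun a _ => ?_
      rw [abs_div, abs_of_pos hΛ0]; field_simp
    rw [this, div_mul_eq_mul_div, div_le_iff₀ hΛ0]
    exact mul_le_mul_of_nonneg_left (hY1 e) hη0.le
  have hNp : ∀ e, N * ∑ b, w b * |y b e| ^ p = η' * ∑ a, m a * |Y a e| ^ p := by
    intro e
    rw [Fintype.sum_option]
    simp only [hw, hy, Option.elim_none, Option.elim_some, abs_zero,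
      Real.zero_rpow (by linarith : p ≠ 0), mul_zero, zero_add]
    rw [Finset.mul_sum, Finset.mul_sum]
    refine Finset.sum_congr rfl fun a _ => ?_
    rw [abs_div, abs_of_pos hΛ0, Real.div_rpow (abs_nonneg _) hΛ0.le, hη']; field_simp
  set X : E → (Fin N → Option A) → ℝ := fun e ξ =>
    if ∀ e', ∑ s, |y (ξ s) e'| ≤ k then |∑ s, y (ξ s) e| ^ p else 0 with hX
  have hX0 : ∀ e ξ, 0 ≤ X e ξ := fun e ξ => by
    simp only [hX]; split_ifs <;> positivity
  have hXB : ∀ e ξ, X e ξ ≤ k ^ p := fun e ξ => by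
    simp only [hX]
    split_ifs with h
    · exact Real.rpow_le_rpow (abs_nonneg _) ((Finset.abs_sum_le_sum_abs _ _).trans (h e))
        (by linarith)
    · linarith
  have hμ : ∀ e, η' * (1 - ε) ≤ Merge.Ex w N (X e) ∧ Merge.Ex w N (X e) ≤ η' * (1 + 3 * ε / 2) := by
    intro e
    have i1 := (Merge.interference h0 h1 hp hC1 hC hG hη (fun b => y b e) (fun b => hy1 b e)
      (hNα e)).trans hI
    have i2 := Merge.truncation (k := k) h0 h1 hp hC1 hC hη y hy1 hNα e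
    have i3 : (Fintype.card E : ℝ) * (C * exp (4 - k)) ≤ t :=
      (mul_le_mul_of_nonneg_right hE (by positivity)).trans hT
    have i4 : Merge.Ex w N (X e) = Merge.Ex w N (fun ξ => |∑ s, y (ξ s) e| ^ p) -
        Merge.Ex w N (fun ξ => if ∀ e', ∑ s, |y (ξ s) e'| ≤ k then 0 else |∑ s, y (ξ s) e| ^ p) := by
      rw [← Merge.Ex_sub]
      congr 1
      funext ξ
      simp only [hX]
      split_ifs <;> simp
    have i5 : 0 ≤ Merge.Ex w N
        (fun ξ => if ∀ e', ∑ s, |y (ξ s) e'| ≤ k then 0 else |∑ s, y (ξ s) e| ^ p) :=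
      Finset.sum_nonneg fun ξ _ => mul_nonneg (Finset.prod_nonneg fun _ _ => h0 _)
        (by beta_reduce; split_ifs <;> positivity)
    rw [hNp e, abs_le] at i1
    have i6 := mul_le_mul_of_nonneg_left (hY2 e) hη'0.le
    have i7 := mul_le_mul_of_nonneg_left (hY3 e) hη'0.le
    rw [i4]
    constructor <;> linarith [i1.1, i1.2]
  obtain ⟨ω, hω⟩ := Merge.sampling (W := fun ξ : Fin N → Option A => ∏ s, w (ξ s))
    (fun ξ => Finset.prod_nonneg fun _ _ => h0 _) (Merge.sum_weights h1) X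
    (by linarith : 0 < k ^ p) ht0 (by nlinarith) hX0 hXB hE hD
  have hD0 : (0 : ℝ) < D := lt_of_lt_of_le (by positivity) hD
  refine ⟨fun i a => if ∀ e', ∑ s, |y (ω i s) e'| ≤ k then
      (∑ s, if ω i s = some a then (1 : ℝ) else 0) / Λ else 0, D * η' * (1 - 3 * ε / 2),
    mul_pos (mul_pos hD0 hη'0) (by linarith), fun e => ?_⟩
  have e1 : ∀ i, |∑ a, (if ∀ e', ∑ s, |y (ω i s) e'| ≤ k then
      (∑ s, if ω i s = some a then (1 : ℝ) else 0) / Λ else 0) * Y a e| ^ p = X e (ω i) := by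
    intro i
    simp only [hX]
    split_ifs with h
    · congr 2
      simp only [Finset.sum_div, Finset.sum_mul]
      rw [Finset.sum_comm]
      refine Finset.sum_congr rfl fun s _ => ?_
      rcases hs : ω i s with _ | a
      · simp [hy]
      · simp only [hy, Option.some.injEq, Option.elim_some]
        rw [Finset.sum_eq_single a]
        · simp only [if_true]; ring
        · intro b _ hb
          rw [if_neg (Ne.symm hb)]; simp
        · simp
    · simp [Real.zero_rpow (by linarith : p ≠ 0)]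
  simp only [e1]
  have j1 := abs_le.1 (hω e)
  obtain ⟨j2, j3⟩ := hμ e
  change η' * (1 - ε) ≤ ∑ ξ : Fin N → Option A, (∏ s, w (ξ s)) * X e ξ at j2
  change ∑ ξ : Fin N → Option A, (∏ s, w (ξ s)) * X e ξ ≤ _ at j3
  have j4 := mul_le_mul_of_nonneg_left j2 hD0.le
  have j5 := mul_le_mul_of_nonneg_left j3 hD0.le
  have j6 : 0 ≤ D * η' * ε * (13 / 2 - 15 * ε) :=
    mul_nonneg (by positivity) (by linarith)
  constructor
  · rw [ht] at j1; nlinarith [j1.1]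
  · rw [ht] at j1; nlinarith [j1.2]

/-- Steps 4+5: merging sparse bounded coordinates and sampling. -/
theorem merge_sample (p ε : ℝ) (hp : 1 < p) (hε : 0 < ε) (hε1 : ε ≤ 1 / 10) :
    ∃ r : ℕ, ∀ (E A : Type) [Fintype E] [Fintype A] (m : A → ℝ) (Y : A → E → ℝ) (Λ : ℝ),
      2 ≤ Λ → (Fintype.card E : ℝ) ≤ Real.exp Λ → (∀ a, 0 ≤ m a) →
      (∀ a e, |Y a e| ≤ Λ) → (∀ e, ∑ a, m a * |Y a e| ≤ Λ) →
      (∀ e, 1 ≤ ∑ a, m a * |Y a e| ^ p) → (∀ e, ∑ a, m a * |Y a e| ^ p ≤ 1 + ε) →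
      ∃ D : ℕ, (D : ℝ) ≤ Λ ^ r ∧ ∃ (c : Fin D → A → ℝ) (s : ℝ), 0 < s ∧
        ∀ e, s ≤ ∑ i, |∑ a, c i a * Y a e| ^ p ∧
          ∑ i, |∑ a, c i a * Y a e| ^ p ≤ (1 + 10 * ε) * s := by
  obtain ⟨C, hC1, hC⟩ := Merge.exists_rpow_le_exp hp.le
  have hp0 : 0 ≤ p := by linarith
  have hp1 : 0 < p - 1 := by linarith
  set Q : ℝ → ℝ := fun x => (4 * (p + 1) / ε) * x ^ p with hQ
  set G : ℝ → ℝ := fun x => Q x ^ (p - 1)⁻¹ with hG
  set H : ℝ → ℝ := fun x => 2 + (4 * 2 ^ p * C) * (G x * Q x) with hH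
  set V : ℝ → ℝ := fun x => (2 / ε) * (x ^ p * H x) with hV
  set k : ℝ → ℝ := fun x => x + (C * Real.exp 4) * V x with hk
  set F : ℝ → ℝ := fun x => 4 * ((k x ^ p * k x ^ p) * ((x + 1) * (V x * V x))) + 1 with hF
  have pL : Merge.Poly fun x => x ^ p := Merge.Poly.id.rpow hp0
  have pQ : Merge.Poly Q := (Merge.Poly.const _).mul pL
  have pG : Merge.Poly G := pQ.rpow (inv_nonneg.2 hp1.le)
  have pH : Merge.Poly H := (Merge.Poly.const _).add ((Merge.Poly.const _).mul (pG.mul pQ))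
  have pV : Merge.Poly V := (Merge.Poly.const _).mul (pL.mul pH)
  have pk : Merge.Poly k := Merge.Poly.id.add ((Merge.Poly.const _).mul pV)
  have pF : Merge.Poly F := ((Merge.Poly.const _).mul (((pk.rpow hp0).mul (pk.rpow hp0)).mul
    ((Merge.Poly.id.add (Merge.Poly.const _)).mul (pV.mul pV)))).add (Merge.Poly.const _)
  obtain ⟨r, hr⟩ := pF
  refine ⟨r, fun E A _ _ m Y Λ hΛ hE hm hY hY1 hY2 hY3 => ?_⟩
  have hΛ0 : 0 < Λ := by linarith
  have hL0 : 0 < Λ ^ p := by positivity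
  have hQ0 : 0 < Q Λ := by simp only [hQ]; positivity
  have hG0 : 0 < G Λ := by simp only [hG]; positivity
  have hH2 : 2 ≤ H Λ := by
    simp only [hH]
    have : 0 ≤ (4 * 2 ^ p * C) * (G Λ * Q Λ) := by positivity
    linarith
  have hH0 : 0 < H Λ := by linarith
  have hV0 : 0 < V Λ := by simp only [hV]; positivity
  have hVt : ε * ((H Λ)⁻¹ / Λ ^ p) / 2 = (V Λ)⁻¹ := by
    simp only [hV]; field_simp
  have hk1 : 1 ≤ k Λ := by
    simp only [hk]
    have : 0 ≤ (C * Real.exp 4) * V Λ := by positivity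
    linarith
  have hF0 : 0 ≤ F Λ - 1 := by
    simp only [hF, add_sub_cancel_right]; positivity
  refine ⟨⌈F Λ - 1⌉₊, ?_, Merge.core (C := C) (G := G Λ) (η := (H Λ)⁻¹) (k := k Λ) hp hε hε1 hC1
    hC hG0 (by positivity) ?_ hΛ hk1 ?_ ?_ ?_ m Y hE hm hY hY1 hY2 hY3⟩
  · have := Nat.ceil_lt_add_one hF0
    linarith [le_abs_self (F Λ), hr Λ hΛ]
  · rw [one_div]; exact inv_anti₀ (by norm_num) hH2
  · have e1 : (G Λ)⁻¹ ^ (p - 1) = (Q Λ)⁻¹ := by
      rw [Real.inv_rpow hG0.le]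
      simp only [hG]
      rw [Real.rpow_inv_rpow hQ0.le hp1.ne']
    have e2 : G Λ * 2 ^ p * C * (4 * (H Λ)⁻¹) ≤ (Q Λ)⁻¹ := by
      rw [← mul_assoc, ← div_eq_mul_inv, div_le_iff₀ hH0, le_inv_mul_iff₀ hQ0]
      simp only [hH]
      nlinarith
    have e3 : (p + 1) * ((H Λ)⁻¹ * ((Q Λ)⁻¹ + (Q Λ)⁻¹)) = ε * ((H Λ)⁻¹ / Λ ^ p) / 2 := by
      simp only [hQ]; field_simp; ring
    rw [e1, ← e3]
    gcongr
  · rw [hVt]
    have e1 : Real.exp Λ * (C * Real.exp (4 - k Λ)) =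
        (C * Real.exp 4) * Real.exp (-((C * Real.exp 4) * V Λ)) := by
      simp only [hk]
      rw [mul_left_comm, ← Real.exp_add, mul_assoc C _ (Real.exp _), ← Real.exp_add]
      congr 2; ring
    have hc : 0 < C * Real.exp 4 := by positivity
    rw [e1, Real.exp_neg, ← div_eq_mul_inv, div_le_iff₀ (Real.exp_pos _), le_inv_mul_iff₀ hV0]
    linarith [Real.add_one_le_exp ((C * Real.exp 4) * V Λ)]
  · rw [hVt]
    refine le_trans (le_of_eq ?_) (Nat.le_ceil _)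
    simp only [hF]
    field_simp
    ring

end Crest.Agent.R232
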