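import Mathlib

set_option autoImplicit false

open MeasureTheory
open scoped ENNReal

namespace Crest.Agent.R232.S59

lemma mid_lt {q : ℝ} (hq : 1 < q) (a b : ℝ) (h : b ≠ -a) :
    |a - b| ^ q < 2 ^ q / 2 * (|a| ^ q + |b| ^ q) := by
  have h2 : (0 : ℝ) < 2 ^ q := by positivity
  by_cases hab : |a| = |b|
  · have hba : b = a := by
      rcases abs_eq_abs.1 hab.symm with h' | h'
      · exact h'
      · exact absurd h' h
    subst hba
    have hb : b ≠ 0 := by rintro rfl; simp at h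
    rw [sub_self, abs_zero, Real.zero_rpow (by linarith)]
    have := Real.rpow_pos_of_pos (abs_pos.2 hb) q
    positivity
  · have h1 := (strictConvexOn_rpow hq).2 (abs_nonneg a) (abs_nonneg b) hab
      (show (0 : ℝ) < 1 / 2 by norm_num) (show (0 : ℝ) < 1 / 2 by norm_num) (by norm_num)
    simp only [smul_eq_mul] at h1
    have h3 : |a - b| ≤ 2 * (1 / 2 * |a| + 1 / 2 * |b|) := by
      have := abs_sub a b; linarith
    calc |a - b| ^ q ≤ (2 * (1 / 2 * |a| + 1 / 2 * |b|)) ^ q :=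
          Real.rpow_le_rpow (abs_nonneg _) h3 (by linarith)
      _ = 2 ^ q * (1 / 2 * |a| + 1 / 2 * |b|) ^ q := Real.mul_rpow (by norm_num) (by positivity)
      _ < 2 ^ q * (1 / 2 * |a| ^ q + 1 / 2 * |b| ^ q) := by gcongr
      _ = _ := by ring

lemma mid_eq {q : ℝ} (a : ℝ) : |a - -a| ^ q = 2 ^ q / 2 * (|a| ^ q + |-a| ^ q) := by
  rw [sub_neg_eq_add, ← two_mul, abs_mul, abs_neg, Real.mul_rpow (abs_nonneg _) (abs_nonneg _),
    abs_two]
  ring

lemma abs_rpow_eq (q s : ℝ) : |s| ^ q = (s ^ 2) ^ (q / 2) := by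
  rw [← sq_abs, ← Real.rpow_natCast, ← Real.rpow_mul (abs_nonneg _)]
  congr 1; push_cast; ring

lemma clarkson {q : ℝ} (hq : 1 < q) (hq2 : q ≠ 2) : ∃ σ : ℝ, ∀ s t : ℝ, s ≠ 0 → t ≠ 0 →
    0 < σ * (|s - -t| ^ q + |s - t| ^ q - 2 * (|s| ^ q + |t| ^ q)) := by
  have hsplit : ∀ a b r : ℝ, 0 < a → 0 < b →
      (a + b) ^ r = a * (a + b) ^ (r - 1) + b * (a + b) ^ (r - 1) := by
    intro a b r ha hb
    rw [Real.rpow_sub_one (by positivity)]; field_simp
  have hone : ∀ a r : ℝ, 0 < a → a ^ r = a * a ^ (r - 1) := by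
    intro a r ha
    rw [Real.rpow_sub_one ha.ne']; field_simp
  rcases lt_or_gt_of_ne hq2 with h | h
  · refine ⟨-1, fun s t hs ht => ?_⟩
    simp only [abs_rpow_eq]
    have h1 := (Real.concaveOn_rpow (p := q / 2) (by linarith) (by linarith)).2
      (sq_nonneg (s - -t)) (sq_nonneg (s - t))
      (show (0 : ℝ) ≤ 1 / 2 by norm_num) (show (0 : ℝ) ≤ 1 / 2 by norm_num) (by norm_num)
    simp only [smul_eq_mul] at h1
    have e : 1 / 2 * (s - -t) ^ 2 + 1 / 2 * (s - t) ^ 2 = s ^ 2 + t ^ 2 := by ring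
    rw [e] at h1
    have ha : 0 < s ^ 2 := by positivity
    have hb : 0 < t ^ 2 := by positivity
    have h2 := hsplit _ _ (q / 2) ha hb
    have h3 := Real.rpow_lt_rpow_of_neg ha (show s ^ 2 < s ^ 2 + t ^ 2 by linarith)
      (show q / 2 - 1 < 0 by linarith)
    have h4 := Real.rpow_lt_rpow_of_neg hb (show t ^ 2 < s ^ 2 + t ^ 2 by linarith)
      (show q / 2 - 1 < 0 by linarith)
    have h5 := hone _ (q / 2) ha
    have h6 := hone _ (q / 2) hb
    nlinarith [mul_lt_mul_of_pos_left h3 ha, mul_lt_mul_of_pos_left h4 hb]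
  · refine ⟨1, fun s t hs ht => ?_⟩
    simp only [abs_rpow_eq]
    have h1 := (convexOn_rpow (p := q / 2) (by linarith)).2
      (sq_nonneg (s - -t)) (sq_nonneg (s - t))
      (show (0 : ℝ) ≤ 1 / 2 by norm_num) (show (0 : ℝ) ≤ 1 / 2 by norm_num) (by norm_num)
    simp only [smul_eq_mul] at h1
    have e : 1 / 2 * (s - -t) ^ 2 + 1 / 2 * (s - t) ^ 2 = s ^ 2 + t ^ 2 := by ring
    rw [e] at h1
    have ha : 0 < s ^ 2 := by positivity
    have hb : 0 < t ^ 2 := by positivity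
    have h2 := hsplit _ _ (q / 2) ha hb
    have h3 := Real.rpow_lt_rpow ha.le (show s ^ 2 < s ^ 2 + t ^ 2 by linarith)
      (show 0 < q / 2 - 1 by linarith)
    have h4 := Real.rpow_lt_rpow hb.le (show t ^ 2 < s ^ 2 + t ^ 2 by linarith)
      (show 0 < q / 2 - 1 by linarith)
    have h5 := hone _ (q / 2) ha
    have h6 := hone _ (q / 2) hb
    nlinarith [mul_lt_mul_of_pos_left h3 ha, mul_lt_mul_of_pos_left h4 hb]

/-- the `q`-th power of the `ℓ^q` distance -/
noncomputable def N {ι : Type*} [Fintype ι] (q : ℝ) (u v : ι → ℝ) : ℝ := ∑ c, |u c - v c| ^ q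

lemma eq_neg_of_N {ι : Type*} [Fintype ι] {q : ℝ} (hq : 1 < q) (u v : ι → ℝ)
    (h : N q u v = 2 ^ q / 2 * (N q u 0 + N q v 0)) : v = -u := by
  by_contra hne
  obtain ⟨c, hc⟩ := Function.ne_iff.1 hne
  have : N q u v < 2 ^ q / 2 * (N q u 0 + N q v 0) := by
    unfold N
    rw [← Finset.sum_add_distrib, Finset.mul_sum]
    apply Finset.sum_lt_sum
    · intro i _
      simp only [Pi.zero_apply, sub_zero]
      by_cases hi : v i = -u i
      · rw [hi]; exact (mid_eq _).le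
      · exact (mid_lt hq _ _ hi).le
    · exact ⟨c, Finset.mem_univ _, by simpa using mid_lt hq _ _ hc⟩
  exact this.ne h

lemma disj_of_N {ι : Type*} [Fintype ι] {q : ℝ} (hq : 1 < q) (hq2 : q ≠ 2) (u v : ι → ℝ)
    (h : N q u (-v) + N q u v = 2 * (N q u 0 + N q v 0)) (c : ι) : u c = 0 ∨ v c = 0 := by
  obtain ⟨σ, hσ⟩ := clarkson hq hq2
  by_contra hc
  push Not at hc
  have h0 : (0 : ℝ) ^ q = 0 := Real.zero_rpow (by linarith)
  have : 0 < ∑ i, σ * (|u i - -v i| ^ q + |u i - v i| ^ q - 2 * (|u i| ^ q + |v i| ^ q)) := by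
    apply Finset.sum_pos'
    · intro i _
      by_cases h1 : u i = 0
      · simp [h1, h0, two_mul]
      by_cases h2 : v i = 0
      · simp [h2, h0, two_mul]
      exact (hσ _ _ h1 h2).le
    · exact ⟨c, Finset.mem_univ _, hσ _ _ hc.1 hc.2⟩
  rw [← Finset.mul_sum, Finset.sum_sub_distrib, Finset.sum_add_distrib, ← Finset.mul_sum,
    Finset.sum_add_distrib] at this
  simp only [N, Pi.neg_apply, Pi.zero_apply, sub_zero] at h
  rw [h] at this
  simp at this

lemma exists_common {ι : Type*} [Fintype ι] {q : ℝ} (u v : ι → ℝ)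
    (h : N q u (-v) ≠ N q u v) : ∃ c, u c ≠ 0 ∧ v c ≠ 0 := by
  by_contra hc
  push Not at hc
  apply h
  apply Finset.sum_congr rfl
  intro c _
  by_cases h1 : u c = 0
  · simp [h1]
  · simp [hc c h1]

lemma N_neg_self {ι : Type*} [Fintype ι] (q : ℝ) (u : ι → ℝ) :
    N q u (-u) = 2 ^ q / 2 * (N q u 0 + N q (-u) 0) := by
  unfold N
  rw [← Finset.sum_add_distrib, Finset.mul_sum]
  exact Finset.sum_congr rfl fun c _ => by simpa using mid_eq (q := q) (u c)

lemma N_disj {ι : Type*} [Fintype ι] {q : ℝ} (hq : 1 < q) (u v : ι → ℝ)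
    (h : ∀ c, u c = 0 ∨ v c = 0) : N q u (-v) + N q u v = 2 * (N q u 0 + N q v 0) := by
  have h0 : (0 : ℝ) ^ q = 0 := Real.zero_rpow (by linarith)
  unfold N
  rw [← Finset.sum_add_distrib, ← Finset.sum_add_distrib, Finset.mul_sum]
  apply Finset.sum_congr rfl
  intro c _
  rcases h c with h | h <;> simp [h, h0, two_mul]

/-- the combinatorial core -/
theorem core {q : ℝ} (hq : 1 < q) (hq2 : q ≠ 2) (k d : ℕ) (S : ℝ) (hS : 0 < S)
    (Y : (Fin k × Fin k → ℝ) → Fin d → ℝ) (T : Set (Fin k × Fin k → ℝ))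
    (hY : ∀ u ∈ T, ∀ v ∈ T, N q (Y u) (Y v) = S * N q u v) (h0 : 0 ∈ T)
    (ha : ∀ i, (fun c => if c.1 = i then (1 : ℝ) else 0) ∈ T)
    (ha' : ∀ i, -(fun c => if c.1 = i then (1 : ℝ) else 0) ∈ T)
    (hb : ∀ i, (fun c => if c.2 = i then (1 : ℝ) else 0) ∈ T)
    (hb' : ∀ i, -(fun c => if c.2 = i then (1 : ℝ) else 0) ∈ T) : k ^ 2 ≤ d := by
  let Z : (Fin k × Fin k → ℝ) → Fin d → ℝ := fun u => Y u - Y 0
  have hZ : ∀ u ∈ T, ∀ v ∈ T, N q (Z u) (Z v) = S * N q u v := by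
    intro u hu v hv
    rw [← hY u hu v hv]; simp [N, Z]
  have hZ0 : ∀ u ∈ T, N q (Z u) 0 = S * N q u 0 := by
    intro u hu
    rw [← hZ u hu 0 h0]; simp [Z]
  have hneg : ∀ u ∈ T, -u ∈ T → Z (-u) = -Z u := by
    intro u hu hu'
    apply eq_neg_of_N hq
    rw [hZ u hu _ hu', hZ0 u hu, hZ0 _ hu', N_neg_self]; ring
  have hdisj : ∀ u ∈ T, ∀ v ∈ T, -v ∈ T → (∀ c, u c = 0 ∨ v c = 0) →
      ∀ c, Z u c = 0 ∨ Z v c = 0 := by
    intro u hu v hv hv' h
    apply disj_of_N hq hq2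
    rw [← hneg v hv hv', hZ u hu _ hv', hZ u hu v hv, hZ0 u hu, hZ0 v hv, ← mul_add,
      N_disj hq u v h]
    ring
  have hmeet : ∀ i j : Fin k, ∃ c, Z (fun c => if c.1 = i then (1 : ℝ) else 0) c ≠ 0 ∧
      Z (fun c => if c.2 = j then (1 : ℝ) else 0) c ≠ 0 := by
    intro i j
    apply exists_common (q := q)
    rw [← hneg _ (hb j) (hb' j), hZ _ (ha i) _ (hb' j), hZ _ (ha i) _ (hb j)]
    apply ne_of_gt
    apply mul_lt_mul_of_pos_left _ hS
    apply Finset.sum_lt_sum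
    · intro c _
      apply Real.rpow_le_rpow (abs_nonneg _) _ (by linarith)
      simp only [Pi.neg_apply]
      split_ifs <;> norm_num
    · refine ⟨(i, j), Finset.mem_univ _, ?_⟩
      apply Real.rpow_lt_rpow (abs_nonneg _) _ (by linarith)
      norm_num
  choose c hc using hmeet
  have hinj : Function.Injective fun ij : Fin k × Fin k => c ij.1 ij.2 := by
    rintro ⟨i, j⟩ ⟨i', j'⟩ h
    simp only at h
    have h1 : i = i' := by
      by_contra hne
      rcases hdisj _ (ha i) _ (ha i') (ha' i') (fun c => by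
        by_cases h1 : c.1 = i
        · right; simp [h1, hne]
        · left; simp [h1]) (c i j) with h2 | h2
      · exact (hc i j).1 h2
      · rw [h] at h2; exact (hc i' j').1 h2
    have h2 : j = j' := by
      by_contra hne
      rcases hdisj _ (hb j) _ (hb j') (hb' j') (fun c => by
        by_cases h1 : c.2 = j
        · right; simp [h1, hne]
        · left; simp [h1]) (c i j) with h2 | h2
      · exact (hc i j).2 h2
      · rw [h] at h2; exact (hc i' j').2 h2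
    rw [h1, h2]
  simpa [sq] using Fintype.card_le_of_injective _ hinj

lemma memLp_count {α : Type} [Fintype α] [MeasurableSpace α] [MeasurableSingletonClass α]
    (p : ℝ≥0∞) (f : α → ℝ) : MemLp f p Measure.count :=
  MemLp.of_discrete

lemma norm_toLp_sub {α : Type} [Fintype α] [MeasurableSpace α] [MeasurableSingletonClass α]
    (p : ℝ≥0∞) [Fact (1 ≤ p)] (hptop : p ≠ ⊤) (f g : α → ℝ) :
    ‖(memLp_count p f).toLp f - (memLp_count p g).toLp g‖ ^ p.toReal = N p.toReal f g := by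
  have hp0 : p ≠ 0 := (zero_lt_one.trans_le (Fact.out : 1 ≤ p)).ne'
  have hq : 0 < p.toReal := ENNReal.toReal_pos hp0 hptop
  rw [← MemLp.toLp_sub, Lp.norm_toLp, eLpNorm_eq_lintegral_rpow_enorm_toReal hp0 hptop,
    lintegral_fintype, ← ENNReal.toReal_rpow, ← Real.rpow_mul ENNReal.toReal_nonneg,
    one_div_mul_cancel hq.ne', Real.rpow_one, ENNReal.toReal_sum (fun a _ => by simp)]
  apply Finset.sum_congr rfl
  intro a _
  simp [← ENNReal.toReal_rpow]

lemma norm_piLp_sub {d : ℕ} (p : ℝ≥0∞) [Fact (1 ≤ p)] (hptop : p ≠ ⊤)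
    (u v : PiLp p (fun _ : Fin d => ℝ)) : ‖u - v‖ ^ p.toReal = N p.toReal u v := by
  have hp0 : p ≠ 0 := (zero_lt_one.trans_le (Fact.out : 1 ≤ p)).ne'
  have hq : 0 < p.toReal := ENNReal.toReal_pos hp0 hptop
  rw [PiLp.norm_eq_sum hq, ← Real.rpow_mul (by positivity), one_div_mul_cancel hq.ne',
    Real.rpow_one]
  simp [N]

end Crest.Agent.R232.S59
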